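import Crest.Agent.R269.Defs

/-!
# Row 269, block A: pointwise linear algebra on the cone (statements FROZEN)
-/

set_option autoImplicit false
set_option linter.unusedSectionVars false
set_option linter.unusedVariables false

noncomputable section

namespace Crest.Agent.R269

open Set Metric Filter Topology MeasureTheory Matrix
open Crest.AlgGeometry.ProjEmb
open scoped InnerProductSpace ContDiff

theorem alg1_ev_add {m : ℕ} (G H : MvPolynomial (Fin m) ℂ) (y : Cn m) :
    ev (G + H) y = ev G y + ev H y := map_add _ _ _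

theorem alg1_ev_mul {m : ℕ} (G H : MvPolynomial (Fin m) ℂ) (y : Cn m) :
    ev (G * H) y = ev G y * ev H y := map_mul _ _ _

theorem alg1_ev_X {m : ℕ} (i : Fin m) (y : Cn m) : ev (MvPolynomial.X i) y = y i :=
  MvPolynomial.eval_X _

theorem alg1_ev_C {m : ℕ} (a : ℂ) (y : Cn m) : ev (MvPolynomial.C a) y = a :=
  MvPolynomial.eval_C _

theorem alg1_ev_zero {m : ℕ} (y : Cn m) : ev (0 : MvPolynomial (Fin m) ℂ) y = 0 := map_zero _

theorem alg1_dev_zero {m : ℕ} (y v : Cn m) : dev (0 : MvPolynomial (Fin m) ℂ) y v = 0 := by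
  simp [dev, ev]

theorem alg1_dev_add {m : ℕ} (G H : MvPolynomial (Fin m) ℂ) (y v : Cn m) :
    dev (G + H) y v = dev G y v + dev H y v := by
  simp only [dev, map_add, alg1_ev_add, add_mul, Finset.sum_add_distrib]

theorem alg1_dev_mul {m : ℕ} (G H : MvPolynomial (Fin m) ℂ) (y v : Cn m) :
    dev (G * H) y v = ev G y * dev H y v + ev H y * dev G y v := by
  simp only [dev, Derivation.leibniz, smul_eq_mul, alg1_ev_add, alg1_ev_mul, add_mul,
    Finset.sum_add_distrib, Finset.mul_sum, mul_assoc]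

theorem alg1_dev_X {m : ℕ} (i : Fin m) (y v : Cn m) : dev (MvPolynomial.X i) y v = v i := by
  unfold dev
  rw [Finset.sum_eq_single i]
  · simp [ev]
  · intro j _ hj
    simp [ev, MvPolynomial.pderiv_X_of_ne (Ne.symm hj)]
  · simp

theorem alg1_dev_C {m : ℕ} (a : ℂ) (y v : Cn m) : dev (MvPolynomial.C a) y v = 0 := by
  simp [dev, ev]

theorem alg1_coord {m : ℕ} (i : Fin m) (y : Cn m) : AnalyticAt ℂ (fun x : Cn m => x i) y :=
  (EuclideanSpace.proj (𝕜 := ℂ) i).analyticAt y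

theorem analyticAt_ev {m : ℕ} (G : MvPolynomial (Fin m) ℂ) (y : Cn m) : AnalyticAt ℂ (ev G) y := by
  induction G using MvPolynomial.induction_on with
  | C a =>
    rw [show ev (MvPolynomial.C a : MvPolynomial (Fin m) ℂ) = fun _ => a from
      funext fun x => alg1_ev_C a x]
    exact analyticAt_const
  | add p q hp hq =>
    rw [show ev (p + q) = fun x => ev p x + ev q x from funext fun x => alg1_ev_add p q x]
    exact hp.add hq
  | mul_X p i hp =>
    rw [show ev (p * MvPolynomial.X i) = fun x => ev p x * x i from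
      funext fun x => by rw [alg1_ev_mul, alg1_ev_X]]
    exact hp.mul (alg1_coord i y)

theorem fderiv_ev {m : ℕ} (G : MvPolynomial (Fin m) ℂ) (y v : Cn m) : fderiv ℂ (ev G) y v = dev G y v := by
  induction G using MvPolynomial.induction_on with
  | C a =>
    rw [show ev (MvPolynomial.C a : MvPolynomial (Fin m) ℂ) = fun _ => a from
      funext fun x => alg1_ev_C a x, alg1_dev_C]
    simp
  | add p q hp hq =>
    rw [show ev (p + q) = fun x => ev p x + ev q x from funext fun x => alg1_ev_add p q x,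
      fderiv_fun_add (analyticAt_ev p y).differentiableAt (analyticAt_ev q y).differentiableAt,
      alg1_dev_add, ← hp, ← hq]
    rfl
  | mul_X p i hp =>
    have hc : fderiv ℂ (fun x : Cn m => x i) y = EuclideanSpace.proj (𝕜 := ℂ) i :=
      (EuclideanSpace.proj (𝕜 := ℂ) i).fderiv
    rw [show ev (p * MvPolynomial.X i) = fun x => ev p x * x i from
      funext fun x => by rw [alg1_ev_mul, alg1_ev_X],
      fderiv_fun_mul (analyticAt_ev p y).differentiableAt (alg1_coord i y).differentiableAt,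
      alg1_dev_mul, alg1_dev_X, alg1_ev_X, ← hp, hc]
    rfl

theorem ev_smul {m d : ℕ} {G : MvPolynomial (Fin m) ℂ} (hG : G.IsHomogeneous d) (y : Cn m) (t : ℂ) :
    ev G (t • y) = t ^ d * ev G y := by
  unfold ev
  rw [MvPolynomial.eval_eq', MvPolynomial.eval_eq', Finset.mul_sum]
  refine Finset.sum_congr rfl fun s hs => ?_
  have hd : ∑ i, s i = d := by
    have h := hG (MvPolynomial.mem_support_iff.1 hs)
    rw [← h, Finsupp.weight_apply, Finsupp.sum_fintype _ _ (by simp)]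
    simp
  simp only [WithLp.ofLp_smul, Pi.smul_apply, smul_eq_mul, mul_pow, Finset.prod_mul_distrib,
    Finset.prod_pow_eq_pow_sum, hd]
  ring

theorem a2_cb {m k : Type} [Fintype m] [DecidableEq m] [Fintype k] [DecidableEq k] (A : Matrix m k ℂ) (U : Matrix k m ℂ) :
    (A * U).det = ∑ β : m → k, (∏ i, A i (β i)) * (U.submatrix β id).det := by
  have e1 : A * U = fun i => ∑ j, A i j • U j := by
    ext i l
    simp [Matrix.mul_apply, Finset.sum_apply]
  have e2 := (Matrix.detRowAlternating (n := m) (R := ℂ)).toMultilinearMap.map_sum (fun i j => A i j • U j)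
  rw [e1]
  refine e2.trans (Finset.sum_congr rfl fun β _ => ?_)
  exact (Matrix.detRowAlternating (n := m) (R := ℂ)).toMultilinearMap.map_smul_univ _ _

theorem a2_sel_mul {N n : ℕ} {l : Type} (β : Fin (n + 1) → Fin (N + 1)) (U : Matrix (Fin (N + 1)) l ℂ) :
    sel β * U = U.submatrix β id := by
  ext a j
  simp [Matrix.mul_apply, sel]

/-- Cauchy–Binet over all maps: expand `det (A * B)` (`Matrix.det_apply`, `Finset.prod_univ_sum`) and symmetrise. -/
theorem det_mul_eq_sum {N n : ℕ} (A : Matrix (Fin (n + 1)) (Fin (N + 1)) ℂ) (U : Matrix (Fin (N + 1)) (Fin (n + 1)) ℂ) :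
    ((n + 1).factorial : ℂ) * (A * U).det = ∑ β, (A * (sel β)ᵀ).det * (sel β * U).det := by
  have e1 : ∀ β : Fin (n + 1) → Fin (N + 1), A * (sel β)ᵀ = A.submatrix id β := fun β => by
    ext a j
    simp [Matrix.mul_apply, sel]
  refine Eq.trans ?_ (Finset.sum_congr rfl fun β _ => congrArg (fun M => Matrix.det M * (sel β * U).det) (e1 β)).symm
  simp only [a2_sel_mul, Matrix.det_apply' (A.submatrix id _), Finset.sum_mul]
  rw [Finset.sum_comm, Finset.sum_congr rfl (g := fun _ => (A * U).det)]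
  · simp [Fintype.card_perm]
  intro σ _
  rw [a2_cb]
  refine (Fintype.sum_equiv (σ.symm.arrowCongr (Equiv.refl _)) _ _ fun γ => ?_).symm
  have e2 : U.submatrix (σ.symm.arrowCongr (Equiv.refl _) γ) id = (U.submatrix γ id).submatrix σ id := rfl
  have e3 : ((Equiv.Perm.sign σ : ℤ) : ℂ) * ((Equiv.Perm.sign σ : ℤ) : ℂ) = 1 := by
    rw [← Int.cast_mul, ← Units.val_mul, Int.units_mul_self]; simp
  rw [e2, Matrix.det_permute, ← Equiv.prod_comp σ]
  simp only [submatrix_apply, id, Equiv.arrowCongr_apply, Equiv.coe_refl, Equiv.symm_symm, Function.comp]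
  linear_combination (-(∏ i, A (σ i) (γ (σ i))) * (U.submatrix γ id).det) * e3

theorem norm_plU_sq {N n : ℕ} (U : Matrix (Fin (N + 1)) (Fin (n + 1)) ℂ) :
    ‖plU U‖ ^ 2 = (n + 1).factorial * gram U := by
  have e1 : ∀ β : Fin (n + 1) → Fin (N + 1), Uᴴ * (sel β)ᵀ = (sel β * U)ᴴ := fun β => by
    ext a j
    simp [Matrix.mul_apply, sel]
  have := congrArg Complex.re (det_mul_eq_sum Uᴴ U)
  rw [Complex.re_sum, ← Complex.ofReal_natCast, Complex.re_ofReal_mul] at this
  rw [EuclideanSpace.norm_sq_eq, gram, this]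
  refine Finset.sum_congr rfl fun β _ => ?_
  refine Eq.trans ?_ (congrArg (fun M => (Matrix.det M * (sel β * U).det).re) (e1 β)).symm
  simp only
  rw [det_conjTranspose, Complex.star_def, Complex.conj_mul', ← Complex.ofReal_pow, Complex.ofReal_re]
  rfl

theorem gram_pos {m r : ℕ} {U : Matrix (Fin m) (Fin r) ℂ} (hU : Function.Injective U.mulVec) : 0 < gram U := by
  open scoped ComplexOrder in
  exact (Complex.pos_iff.1 (Matrix.PosDef.conjTranspose_mul_self U hU).det_pos).1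

theorem gram_mul {m r : ℕ} (U : Matrix (Fin m) (Fin r) ℂ) (S : Matrix (Fin r) (Fin r) ℂ) :
    gram (U * S) = gram U * ‖S.det‖ ^ 2 := by
  have : (U * S)ᴴ * (U * S) = Sᴴ * ((Uᴴ * U) * S) := by simp only [conjTranspose_mul, Matrix.mul_assoc]
  rw [gram, gram, this, det_mul, det_mul, det_conjTranspose, mul_left_comm, Complex.star_def, Complex.conj_mul',
    ← Complex.ofReal_pow, Complex.re_mul_ofReal]

theorem alg1_span {m : ℕ} {s : Set (MvPolynomial (Fin m) ℂ)} {y v : Cn m}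
    (h : ∀ g ∈ s, ev g y = 0 ∧ dev g y v = 0) {G : MvPolynomial (Fin m) ℂ} (hG : G ∈ Ideal.span s) :
    ev G y = 0 ∧ dev G y v = 0 := by
  induction hG using Submodule.span_induction with
  | mem g hg => exact h g hg
  | zero => exact ⟨alg1_ev_zero y, alg1_dev_zero y v⟩
  | add p q _ _ hp hq =>
    rw [alg1_ev_add, alg1_dev_add, hp.1, hp.2, hq.1, hq.2, add_zero]
    exact ⟨rfl, rfl⟩
  | smul a p _ hp =>
    rw [smul_eq_mul, alg1_ev_mul, alg1_dev_mul, hp.1, hp.2, mul_zero, zero_mul, add_zero]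
    exact ⟨rfl, rfl⟩

theorem alg1_comp {m : ℕ} {g : MvPolynomial (Fin m) ℂ} {y v : Cn m}
    (h : ∀ d ≤ g.totalDegree, ev (MvPolynomial.homogeneousComponent d g) y = 0 ∧
      dev (MvPolynomial.homogeneousComponent d g) y v = 0) : ev g y = 0 ∧ dev g y v = 0 := by
  refine alg1_span (s := {G | ∃ d ≤ g.totalDegree, G = MvPolynomial.homogeneousComponent d g}) ?_ ?_
  · rintro _ ⟨d, hd, rfl⟩
    exact h d hd
  · rw [← MvPolynomial.sum_homogeneousComponent g]
    refine Ideal.sum_mem _ fun d hd => Ideal.subset_span ⟨d, ?_, ?_⟩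
    · rw [MvPolynomial.sum_homogeneousComponent g]
      exact Nat.lt_succ_iff.1 (Finset.mem_range.1 hd)
    · rw [MvPolynomial.sum_homogeneousComponent g]

theorem alg1_dev_v0 {m : ℕ} (G : MvPolynomial (Fin m) ℂ) (y : Cn m) : dev G y 0 = 0 := by
  simp [dev]

/-- `I` is finitely generated, hence generated by finitely many homogeneous `Gᵢ` (components of generators);
`e = 1 + max deg`, `F = {x_l ^ (e - dᵢ) Gᵢ}`. -/
theorem geo_exists {N n : ℕ} (I : Ideal (HomCoordRing N)) (hI : I.IsPrime) (hX : IsSmoothProjective I n) (hn : 1 ≤ n) :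
    ∃ X : Geo N n, X.I = I := by
  classical
  obtain ⟨s, hs⟩ : I.FG := IsNoetherian.noetherian I
  set e : ℕ := s.sup MvPolynomial.totalDegree + 1 with he
  let ι : Type := s × Fin e × Fin (N + 1)
  let F : ι → MvPolynomial (Fin (N + 1)) ℂ := fun p =>
    MvPolynomial.X p.2.2 ^ (e - p.2.1) * MvPolynomial.homogeneousComponent p.2.1 p.1.1
  let σ : Fin (Fintype.card ι) ≃ ι := (Fintype.equivFin ι).symm
  have key : ∀ y : Cn (N + 1), y ≠ 0 → (∀ j, ev (F (σ j)) y = 0) → ∀ v : Cn (N + 1),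
      (∀ j, dev (F (σ j)) y v = 0) → ∀ G ∈ I, ev G y = 0 ∧ dev G y v = 0 := by
    intro y hy h0 v h1 G hG
    obtain ⟨l, hl⟩ : ∃ l, y l ≠ 0 := by
      by_contra hc
      push Not at hc
      exact hy (by ext l; exact hc l)
    rw [← hs] at hG
    refine alg1_span (fun g hg => alg1_comp fun d hd => ?_) hG
    have hd' : d < e := Nat.lt_succ_of_le (hd.trans (Finset.le_sup (f := MvPolynomial.totalDegree) hg))
    have hx : ev (MvPolynomial.X l ^ (e - d) : MvPolynomial (Fin (N + 1)) ℂ) y ≠ 0 := by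
      unfold ev
      rw [map_pow, MvPolynomial.eval_X]
      exact pow_ne_zero _ hl
    have a0 := h0 (σ.symm (⟨g, hg⟩, ⟨d, hd'⟩, l))
    have a1 := h1 (σ.symm (⟨g, hg⟩, ⟨d, hd'⟩, l))
    rw [Equiv.apply_symm_apply] at a0 a1
    simp only [F] at a0 a1
    rw [alg1_ev_mul] at a0
    have b0 := (mul_eq_zero.1 a0).resolve_left hx
    rw [alg1_dev_mul, b0, zero_mul, add_zero] at a1
    exact ⟨b0, (mul_eq_zero.1 a1).resolve_left hx⟩
  refine ⟨⟨I, hI, hX, hn, N - n, ?_, Fintype.card ι, e, Nat.succ_le_succ (Nat.zero_le _),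
    fun j => F (σ j), fun j => ?_, fun j => ?_, fun y hy h0 G hG => ?_,
    fun y hy h0 v h1 G hG => (key y hy h0 v h1 G hG).2⟩, rfl⟩
  · have := hX.dim_le
    omega
  · have h1 := (MvPolynomial.isHomogeneous_X_pow (R := ℂ) (σ j).2.2 (e - (σ j).2.1)).mul
      (MvPolynomial.homogeneousComponent_isHomogeneous (σ j).2.1 (σ j).1.1)
    rw [Nat.sub_add_cancel (σ j).2.1.2.le] at h1
    exact h1
  · refine I.mul_mem_left _ (hX.homogeneous _ ?_ _)
    rw [← hs]
    exact Ideal.subset_span (σ j).1.2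
  · exact (key y hy h0 0 (fun j => alg1_dev_v0 _ _) G hG).1

namespace Geo

variable {N n : ℕ} (X : Geo N n)

theorem mem_Y_iff {y : Cn (N + 1)} : y ∈ X.Y ↔ y ≠ 0 ∧ y.ofLp ∈ affineCone X.I := by
  exact ⟨fun h => ⟨h.1, X.zero y h.1 h.2⟩, fun h => ⟨h.1, fun j => h.2 _ (X.mem j)⟩⟩

theorem J_mulVec (y v : Cn (N + 1)) (j : Fin X.k) : (X.J y *ᵥ v.ofLp) j = dev (X.F j) y v := by
  rfl

theorem smul_mem_Y {y : Cn (N + 1)} (hy : y ∈ X.Y) {t : ℂ} (ht : t ≠ 0) : t • y ∈ X.Y := by
  refine ⟨smul_ne_zero ht hy.1, fun j => ?_⟩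
  rw [ev_smul (X.hom j), hy.2 j, mul_zero]

theorem J_smul (y : Cn (N + 1)) (t : ℂ) : X.J (t • y) = t ^ (X.e - 1) • X.J y := by
  ext j i
  exact ev_smul (X.hom j).pderiv y t

theorem T_smul (y : Cn (N + 1)) {t : ℂ} (ht : t ≠ 0) : X.T (t • y) = X.T y := by
  ext v
  rw [mem_T, mem_T, J_smul, Matrix.smul_mulVec, smul_eq_zero, or_iff_right (pow_ne_zero _ ht)]

/-- Euler (`MvPolynomial.IsHomogeneous.sum_X_mul_pderiv`). -/
theorem self_mem_T {y : Cn (N + 1)} (hy : y ∈ X.Y) : y ∈ X.T y := by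
  rw [mem_T]
  ext j
  have h := congrArg (MvPolynomial.eval y.ofLp) (X.hom j).sum_X_mul_pderiv
  rw [map_sum, map_nsmul, show MvPolynomial.eval y.ofLp (X.F j) = 0 from hy.2 j, smul_zero] at h
  rw [J_mulVec, Pi.zero_apply, ← h]
  refine Finset.sum_congr rfl fun i _ => ?_
  rw [map_mul, MvPolynomial.eval_X, mul_comm]
  rfl

theorem continuous_J : Continuous X.J := by
  exact continuous_matrix fun j i =>
    continuous_iff_continuousAt.2 fun y => (analyticAt_ev _ y).continuousAt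

theorem isClosed_Y0 : IsClosed (insert 0 X.Y) := by
  have h : insert 0 X.Y = ⋂ j, {y | ev (X.F j) y = 0} := by
    ext y
    simp only [mem_insert_iff, mem_iInter, mem_ofPred_eq]
    constructor
    · rintro (rfl | hy) j
      · have h := ev_smul (X.hom j) 0 0
        rw [zero_pow (Nat.one_le_iff_ne_zero.1 X.epos), zero_mul, zero_smul] at h
        exact h
      · exact hy.2 j
    · intro h
      by_cases hy : y = 0
      · exact Or.inl hy
      · exact Or.inr ⟨hy, h⟩
  rw [h]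
  exact isClosed_iInter fun j => isClosed_eq
    (continuous_iff_continuousAt.2 fun y => (analyticAt_ev _ y).continuousAt) continuous_const

theorem isCompact_Y1 : IsCompact (X.Y ∩ sphere 0 1) := by
  have h : X.Y ∩ sphere 0 1 = insert 0 X.Y ∩ sphere 0 1 := by
    rw [insert_inter_of_notMem (by simp)]
  rw [h]
  exact (isCompact_sphere 0 1).inter_left X.isClosed_Y0

/-- Nullstellensatz (`MvPolynomial.vanishingIdeal_zeroLocus_eq_radical`) for `x_i G`, `x_i ∉ I`. -/
theorem mem_of_vanish {G : MvPolynomial (Fin (N + 1)) ℂ} (h : ∀ y ∈ X.Y, ev G y = 0) : G ∈ X.I := by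
  obtain ⟨i, hi⟩ := X.sm.exists_coord_not_mem
  have hp := X.prime
  have h1 : MvPolynomial.X i * G ∈ X.I := by
    rw [← MvPolynomial.IsPrime.vanishingIdeal_zeroLocus (K := ℂ) X.I]
    intro x hx
    rw [map_mul, MvPolynomial.aeval_X]
    by_cases h0 : x = 0
    · rw [h0, Pi.zero_apply, zero_mul]
    · have hy : WithLp.toLp 2 x ∈ X.Y :=
        X.mem_Y_iff.2 ⟨fun hc => h0 (congrArg WithLp.ofLp hc), hx⟩
      rw [show MvPolynomial.aeval x G = 0 from h _ hy, mul_zero]
  exact (hp.mem_or_mem h1).resolve_left hi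

theorem Y_nonempty : X.Y.Nonempty := by
  by_contra h
  refine X.prime.ne_top ((Ideal.eq_top_iff_one _).2 (X.mem_of_vanish fun y hy => ?_))
  exact (h ⟨y, hy⟩).elim

/-- The span of the gradients of `I` is the row space of `J y` (`grad`), which has dimension `N - n`. -/
theorem finrank_T {y : Cn (N + 1)} (hy : y ∈ X.Y) : Module.finrank ℂ (X.T y) = n + 1 := by
  let φ : (Fin (N + 1) → ℂ) ≃ₗ[ℂ] Module.Dual ℂ (Cn (N + 1)) :=
    (dotProductEquiv ℂ (Fin (N + 1))).trans (WithLp.linearEquiv 2 ℂ _).dualMap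
  have hφ : ∀ w (v : Cn (N + 1)), φ w v = w ⬝ᵥ v.ofLp := fun w v => rfl
  have e1 := X.sm.jacobian y.ofLp (X.mem_Y_iff.1 hy).2 (by simpa using hy.1)
  rw [← φ.finrank_map_eq] at e1
  have e2 := Subspace.finrank_add_finrank_dualCoannihilator_eq ((Submodule.span ℂ
      {v : Fin (N + 1) → ℂ | ∃ F ∈ X.I, v = fun j => MvPolynomial.eval y.ofLp (MvPolynomial.pderiv j F)}).map φ.toLinearMap)
  rw [e1, finrank_euclideanSpace_fin, Submodule.map_span] at e2
  have e3 : X.T y = (Submodule.span ℂ (φ.toLinearMap '' {v : Fin (N + 1) → ℂ | ∃ F ∈ X.I,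
      v = fun j => MvPolynomial.eval y.ofLp (MvPolynomial.pderiv j F)})).dualCoannihilator := by
    ext v
    rw [← SetLike.mem_coe (p := Submodule.dualCoannihilator _), Submodule.coe_dualCoannihilator_span, X.mem_T]
    constructor
    · rintro hv _ ⟨_, ⟨G, hG, rfl⟩, rfl⟩
      exact X.grad y hy.1 hy.2 v (fun j => (X.J_mulVec y v j).symm.trans (congrFun hv j)) G hG
    · intro hv
      funext j
      exact hv _ ⟨_, ⟨_, X.mem j, rfl⟩, rfl⟩
  have := X.sm.dim_le
  rw [e3]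
  omega

theorem a2_colM {y : Cn (N + 1)} {U : Fin (n + 1) → Cn (N + 1)} :
    X.IsFrame y (colM U) ↔ (∀ a, U a ∈ X.T y) ∧ LinearIndependent ℂ U := by
  refine and_congr ⟨fun h a => funext fun j => congrFun (congrFun h j) a, fun h => ?_⟩ ?_
  · ext j a
    exact congrFun (h a) j
  · rw [Matrix.mulVec_injective_iff]
    exact (WithLp.linearEquiv 2 ℂ (Fin (N + 1) → ℂ)).toLinearMap.linearIndependent_iff (v := U) (LinearEquiv.ker _)

theorem exists_frame {y : Cn (N + 1)} (hy : y ∈ X.Y) : ∃ U, X.IsFrame y U := by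
  let b := Module.finBasisOfFinrankEq ℂ (X.T y) (X.finrank_T hy)
  exact ⟨colM fun a => b a, (a2_colM X).2 ⟨fun a => (b a).2, b.linearIndependent.map' (X.T y).subtype (Submodule.ker_subtype _)⟩⟩

theorem IsFrame.range {X : Geo N n} {y : Cn (N + 1)} (hy : y ∈ X.Y) {U} (hU : X.IsFrame y U) {v : Cn (N + 1)} :
    v ∈ X.T y ↔ ∃ a, v.ofLp = U *ᵥ a := by
  let L : (Fin (n + 1) → ℂ) →ₗ[ℂ] Cn (N + 1) := (WithLp.linearEquiv 2 ℂ _).symm.toLinearMap ∘ₗ U.mulVecLin
  have h1 : LinearMap.range L ≤ X.T y := by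
    rintro _ ⟨a, rfl⟩
    show X.J y *ᵥ U *ᵥ a = 0
    rw [mulVec_mulVec, hU.1, zero_mulVec]
  have h2 : Function.Injective L := (WithLp.linearEquiv 2 ℂ _).symm.injective.comp hU.2
  rw [← Submodule.eq_of_le_of_finrank_eq h1 (by rw [LinearMap.finrank_range_of_inj h2, X.finrank_T hy]; simp)]
  exact ⟨fun ⟨a, ha⟩ => ⟨a, by rw [← ha]; rfl⟩, fun ⟨a, ha⟩ => ⟨a, by ext i; exact (congrFun ha i).symm⟩⟩

theorem IsFrame.exists_mul {X : Geo N n} {y : Cn (N + 1)} (hy : y ∈ X.Y) {U U'} (hU : X.IsFrame y U) (hU' : X.IsFrame y U') :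
    ∃ S : Matrix (Fin (n + 1)) (Fin (n + 1)) ℂ, S.det ≠ 0 ∧ U' = U * S := by
  choose a ha using fun j => (hU.range hy (v := WithLp.toLp 2 fun i => U' i j)).1
    (funext fun l => congrFun (congrFun hU'.1 l) j)
  have e : U' = U * Matrix.of fun i j => a j i := by
    ext i j
    exact congrFun (ha j) i
  refine ⟨_, fun h => ?_, e⟩
  obtain ⟨v, hv, h0⟩ := Matrix.exists_mulVec_eq_zero_iff.2 h
  exact hv (hU'.2 (by rw [e, ← mulVec_mulVec, h0, mulVec_zero, mulVec_zero]))

theorem isFrame_colM {y : Cn (N + 1)} {U : Fin (n + 1) → Cn (N + 1)} :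
    X.IsFrame y (colM U) ↔ (∀ a, U a ∈ X.T y) ∧ LinearIndependent ℂ U := by
  exact a2_colM X

theorem exists_dl_poly (f : X.Fi) (Λ : Matrix (Fin (n + 1)) (Fin (N + 1)) ℂ) :
    ∃ P : MvPolynomial (Fin (N + 1)) ℂ, P.IsHomogeneous (X.c * (X.e - 1)) ∧ ∀ y, ev P y = X.dl f Λ y := by
  refine ⟨(Matrix.of fun r => Sum.elim (fun a i => MvPolynomial.C (Λ a i)) (fun a i => MvPolynomial.pderiv i (X.F (f a)))
    (X.eqv.symm r)).det, ?_, fun y => ((MvPolynomial.eval y.ofLp).map_det _).trans (congrArg det ?_)⟩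
  · rw [det_apply']
    refine MvPolynomial.IsHomogeneous.sum _ _ _ fun σ _ => ?_
    convert (MvPolynomial.isHomogeneous_C _ (Equiv.Perm.sign σ : ℂ)).mul (MvPolynomial.IsHomogeneous.prod Finset.univ _
      (fun i => Sum.elim (fun _ => 0) (fun _ => X.e - 1) (X.eqv.symm (σ i))) fun i _ => ?_) using 1
    · rfl
    · simpa using ((σ.trans X.eqv.symm).sum_comp (Sum.elim (fun _ => 0) fun _ => X.e - 1)).symm
    · rw [of_apply]
      rcases X.eqv.symm (σ i) with a | a
      exacts [MvPolynomial.isHomogeneous_C _ _, (X.hom _).pderiv]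
  · ext r i
    simp only [RingHom.mapMatrix_apply, map_apply, of_apply, MM]
    rcases X.eqv.symm r with a | a
    exacts [MvPolynomial.eval_C _, rfl]

theorem analyticAt_dl (f : X.Fi) (Λ) (y : Cn (N + 1)) : AnalyticAt ℂ (X.dl f Λ) y := by
  obtain ⟨P, -, h⟩ := X.exists_dl_poly f Λ
  exact funext h ▸ analyticAt_ev P y

theorem analyticAt_dv (f : X.Fi) (y : Cn (N + 1)) : AnalyticAt ℂ (X.dv f) y := by
  exact ((PiLp.continuousLinearEquiv 2 ℂ _).symm.analyticAt _).comp (AnalyticAt.pi fun β => X.analyticAt_dl f (sel β) y)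

theorem dl_smul (f : X.Fi) (Λ) (y : Cn (N + 1)) (t : ℂ) : X.dl f Λ (t • y) = t ^ (X.c * (X.e - 1)) * X.dl f Λ y := by
  obtain ⟨P, hP, h⟩ := X.exists_dl_poly f Λ
  rw [← h, ← h, ev_smul hP]

theorem pl_smul (y : Cn (N + 1)) {t : ℂ} (ht : t ≠ 0) : X.pl (t • y) = X.pl y := by
  have h : ∀ y (t : ℂ), X.pl (t • y) ≤ X.pl y := fun y t => Submodule.span_le.2 <| forall_mem_range.2 fun f =>
    (show t ^ (X.c * (X.e - 1)) • X.dv f y = X.dv f (t • y) from PiLp.ext fun β => (X.dl_smul f _ y t).symm) ▸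
      Submodule.smul_mem _ _ (Submodule.subset_span (mem_range_self f))
  exact (h y t).antisymm (by simpa [ht] using h (t • y) t⁻¹)

theorem alg3_minor {m r : ℕ} {A : Matrix (Fin m) (Fin r) ℂ} (hA : Function.Injective A.mulVec) :
    ∃ f : Fin r → Fin m, (A.submatrix f id).det ≠ 0 := by
  by_contra! h
  have : (Aᴴ * A).det = 0 := by
    rw [show Aᴴ * A = fun i => ∑ j, Aᴴ i j • A j from ext fun i k => by simp [mul_apply]]
    refine (detRowAlternating.toMultilinearMap.map_sum _).trans (Finset.sum_eq_zero fun f _ => ?_)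
    exact (detRowAlternating.map_smul_univ _ _).trans (smul_eq_zero_of_right _ (h f))
  exact (gram_pos hA).ne' (by rw [gram, this, Complex.zero_re])

/-- Complete `U` to an invertible `[U | V]`; `MM * [U | V]` is block triangular, so
`δ · det [U | V] = det (Λ U) · det (J_f V)` (`Matrix.det_fromBlocks_zero₂₁`, reindex by `eqv`); `J V` is injective, so it has
`c` independent rows. -/
theorem exists_mu {y : Cn (N + 1)} (hy : y ∈ X.Y) {U} (hU : X.IsFrame y U) :
    ∃ μ : X.Fi → ℂ, μ ≠ 0 ∧ ∀ f Λ, X.dl f Λ y = μ f * (Λ * U).det := by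
  let L : Cn (N + 1) →ₗ[ℂ] Fin X.k → ℂ := (X.J y).mulVecLin ∘ₗ (WithLp.linearEquiv 2 ℂ (Fin (N + 1) → ℂ)).toLinearMap
  have h1 := L.finrank_range_add_finrank_ker
  rw [show LinearMap.ker L = X.T y from Submodule.ext fun _ => Iff.rfl, X.finrank_T hy, finrank_euclideanSpace_fin] at h1
  have b := Module.finBasisOfFinrankEq ℂ (LinearMap.range L) (n := X.c) (by have := X.hc; omega)
  choose v hv using fun i => (b i).2
  have hb := b.linearIndependent.map' _ (Submodule.ker_subtype _)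
  rw [show L.range.subtype ∘ b = (X.J y * colM v).col from funext fun i => (hv i).symm] at hb
  obtain ⟨f₀, h₀⟩ := alg3_minor (mulVec_injective_iff.2 hb)
  let W : Matrix _ _ ℂ := .of fun i s => Sum.elim (U i) (colM v i) (X.eqv.symm s)
  have key : ∀ f Λ, X.dl f Λ y * W.det = (Λ * U).det * ((X.J y * colM v).submatrix f id).det := fun f Λ => by
    rw [dl, ← det_mul, ← det_fromBlocks_zero₂₁ _ (Λ * colM v), ← det_submatrix_equiv_self X.eqv.symm]
    congr 1
    ext r s
    simp only [mul_apply, MM, W, of_apply, submatrix_apply]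
    rcases X.eqv.symm r with a | a <;> rcases X.eqv.symm s with a' | a'
    exacts [rfl, rfl, congrFun (congrFun hU.1 _) _, rfl]
  have hW : W.det ≠ 0 := right_ne_zero_of_mul ((key f₀ Uᴴ).trans_ne (mul_ne_zero
    (fun h => (gram_pos hU.2).ne' (by rw [gram, h, Complex.zero_re])) h₀))
  exact ⟨fun f => ((X.J y * colM v).submatrix f id).det / W.det, fun h => div_ne_zero h₀ hW (congrFun h f₀),
    fun f Λ => by rw [div_mul_eq_mul_div, eq_div_iff hW, key, mul_comm]⟩

theorem plU_ne {y : Cn (N + 1)} {U} (hU : X.IsFrame y U) : plU U ≠ 0 := by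
  intro h
  have := norm_plU_sq U
  rw [h, norm_zero, zero_pow two_ne_zero] at this
  exact this.not_lt (mul_pos (by positivity) (gram_pos hU.2))

theorem pl_eq {y : Cn (N + 1)} (hy : y ∈ X.Y) {U} (hU : X.IsFrame y U) : X.pl y = Submodule.span ℂ {plU U} := by
  obtain ⟨μ, h0, h⟩ := X.exists_mu hy hU
  obtain ⟨f, hf⟩ := Function.ne_iff.1 h0
  have e : ∀ f, X.dv f y = μ f • plU U := fun f => PiLp.ext fun β => h f _
  refine le_antisymm (Submodule.span_le.2 <| forall_mem_range.2 fun f => e f ▸ Submodule.smul_mem _ _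
    (Submodule.mem_span_singleton_self _)) ((Submodule.span_singleton_le_iff_mem _ _).2 ?_)
  exact (Submodule.smul_mem_iff _ hf).1 (e f ▸ Submodule.subset_span (mem_range_self f))

theorem exists_dv_ne {y : Cn (N + 1)} (hy : y ∈ X.Y) : ∃ f, X.dv f y ≠ 0 := by
  obtain ⟨U, hU⟩ := X.exists_frame hy
  obtain ⟨μ, h0, h⟩ := X.exists_mu hy hU
  obtain ⟨f, hf⟩ := Function.ne_iff.1 h0
  exact ⟨f, (show μ f • plU U = X.dv f y from PiLp.ext fun β => (h f _).symm) ▸ smul_ne_zero hf (X.plU_ne hU)⟩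

/-- rank one -/
theorem dl_mul_dl {y : Cn (N + 1)} (hy : y ∈ X.Y) (f f' : X.Fi) (Λ Λ') :
    X.dl f Λ y * X.dl f' Λ' y = X.dl f' Λ y * X.dl f Λ' y := by
  obtain ⟨U, hU⟩ := X.exists_frame hy
  obtain ⟨μ, -, h⟩ := X.exists_mu hy hU
  simp only [h]
  ring

theorem norm_dl_le (Λ : Matrix (Fin (n + 1)) (Fin (N + 1)) ℂ) : ∃ C : ℝ, 0 < C ∧ ∀ f, ∀ y ∈ X.Y, ‖X.dl f Λ y‖ ≤ C * ‖X.dv f y‖ := by
  refine ⟨∑ β, ‖(Λ * (sel β)ᵀ).det‖ + 1, by positivity, fun f y hy => ?_⟩
  obtain ⟨U, hU⟩ := X.exists_frame hy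
  obtain ⟨μ, -, h⟩ := X.exists_mu hy hU
  have e : ((n + 1).factorial : ℂ) * X.dl f Λ y = ∑ β, (Λ * (sel β)ᵀ).det * X.dv f y β := by
    simp only [dv, h, mul_left_comm _ (μ f), det_mul_eq_sum, Finset.mul_sum]
    rfl
  refine (le_mul_of_one_le_left (norm_nonneg _) (Nat.one_le_cast.2 (n + 1).factorial_pos)).trans ?_
  rw [← Complex.norm_natCast, ← norm_mul, e, add_mul, Finset.sum_mul]
  exact le_add_of_le_of_nonneg (norm_sum_le_of_le _ fun β _ => (norm_mul _ _).trans_le
    (mul_le_mul_of_nonneg_left (PiLp.norm_apply_le _ β) (norm_nonneg _))) (by positivity)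

/-- The coordinate functionals span the dual of `T y` and `x_i` is not zero on `T y ∋ y`. -/
theorem exists_beta {y : Cn (N + 1)} (hy : y ∈ X.Y) {i : Fin (N + 1)} (hi : y i ≠ 0) :
    ∃ f β, β 0 = i ∧ X.dl f (sel β) y ≠ 0 := by
  obtain ⟨U, hU⟩ := X.exists_frame hy
  obtain ⟨μ, hμ, h⟩ := X.exists_mu hy hU
  obtain ⟨f, hf⟩ := Function.ne_iff.1 hμ
  have hsel : ∀ β : Fin (n + 1) → Fin (N + 1), sel β * U = U.submatrix β id := fun β => by
    ext a b
    simp [sel, Matrix.mul_apply]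
  obtain ⟨β, hβ⟩ : ∃ β, (sel β * U).det ≠ 0 := by
    by_contra h0
    push Not at h0
    exact X.plU_ne hU (by ext β; exact h0 β)
  obtain ⟨a, ha⟩ := (hU.range hy).1 (X.self_mem_T hy)
  have hUi : U i ≠ 0 := fun h0 => hi (by
    rw [show y i = U i ⬝ᵥ a from congrFun ha i, h0, zero_dotProduct])
  obtain ⟨a₀, ha₀⟩ : ∃ a₀, ((sel β * U).updateRow a₀ (U i)).det ≠ 0 := by
    by_contra h0
    push Not at h0
    have h1 := Matrix.mulVec_cramer (sel β * U)ᵀ (U i)
    rw [show Matrix.cramer (sel β * U)ᵀ (U i) = 0 from funext fun a => by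
      rw [Matrix.cramer_transpose_apply, h0, Pi.zero_apply], Matrix.mulVec_zero, Matrix.det_transpose] at h1
    exact smul_ne_zero hβ hUi h1.symm
  refine ⟨f, Function.update β a₀ i ∘ Equiv.swap 0 a₀, by simp, ?_⟩
  have e : sel (Function.update β a₀ i ∘ Equiv.swap 0 a₀) * U =
      ((sel β * U).updateRow a₀ (U i)).submatrix (Equiv.swap 0 a₀) id := by
    rw [hsel, hsel]
    ext a b
    simp only [Matrix.submatrix_apply, Function.comp, Matrix.updateRow_apply, Function.update_apply, id]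
    split_ifs <;> rfl
  rw [h, e, Matrix.det_permute]
  exact mul_ne_zero hf (mul_ne_zero (by simp) ha₀)

theorem alg4_poly (f : X.Fi) (y : Cn (N + 1)) : ∃ P : MvPolynomial (Fin (n + 1) × Fin (N + 1)) ℂ,
    ∀ x, MvPolynomial.eval x P =
      ell (Matrix.of fun a i => x (a, i)) y * X.dl f (Matrix.of fun a i => x (a, i)) y := by
  refine ⟨(∑ i, MvPolynomial.X (0, i) * MvPolynomial.C (y i)) * (Matrix.of fun r i =>
    Sum.elim (fun a => MvPolynomial.X (a, i)) (fun j => MvPolynomial.C (X.J y (f j) i))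
      (X.eqv.symm r)).det, fun x => ?_⟩
  rw [map_mul, RingHom.map_det]
  congr 1
  · simp [ell, Matrix.mulVec, dotProduct]
  · unfold dl
    congr 1
    ext r i
    simp only [MM, RingHom.mapMatrix_apply, Matrix.map_apply, Matrix.of_apply]
    rcases X.eqv.symm r with a | j <;> simp

theorem alg4_ne {y : Cn (N + 1)} (hy : y ∈ X.Y) :
    ∃ (f : X.Fi) (P : MvPolynomial (Fin (n + 1) × Fin (N + 1)) ℂ), P ≠ 0 ∧ ∀ x, MvPolynomial.eval x P =
      ell (Matrix.of fun a i => x (a, i)) y * X.dl f (Matrix.of fun a i => x (a, i)) y := by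
  obtain ⟨i, hi⟩ : ∃ i, y i ≠ 0 := by
    by_contra h0
    push Not at h0
    exact hy.1 (by ext i; exact h0 i)
  obtain ⟨f, β, h0, h1⟩ := X.exists_beta hy hi
  obtain ⟨P, hP⟩ := X.alg4_poly f y
  refine ⟨f, P, fun h => ?_, hP⟩
  have h2 := hP fun p => sel β p.1 p.2
  rw [h, map_zero] at h2
  refine mul_ne_zero ?_ h1 h2.symm
  simpa [ell, Matrix.mulVec, dotProduct, sel, h0] using hi

/-- A product of four nonzero polynomials in the entries of `Λ` is nonzero (or: move along lines of matrices). -/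
theorem exists_Lambda {y y' : Cn (N + 1)} (hy : y ∈ X.Y) (hy' : y' ∈ X.Y) :
    ∃ Λ, ell Λ y ≠ 0 ∧ ell Λ y' ≠ 0 ∧ (∃ f, X.dl f Λ y ≠ 0) ∧ ∃ f, X.dl f Λ y' ≠ 0 := by
  obtain ⟨f, P, h0, hP⟩ := X.alg4_ne hy
  obtain ⟨f', P', h0', hP'⟩ := X.alg4_ne hy'
  obtain ⟨x, hx⟩ : ∃ x, MvPolynomial.eval x (P * P') ≠ 0 := by
    by_contra h
    push Not at h
    exact mul_ne_zero h0 h0' (MvPolynomial.funext fun x => by rw [h, map_zero])
  rw [map_mul, hP, hP', mul_ne_zero_iff, mul_ne_zero_iff, mul_ne_zero_iff] at hx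
  exact ⟨_, hx.1.1, hx.2.1, ⟨f, hx.1.2⟩, f', hx.2.2⟩

/-- Polynomial projectors: `Π = adj(MM) [Λ; 0]`, `Q = adj(MM) [0; S_f]`.  `J Π = 0` on `Y`: if the rows `J_f` are independent
then `ker J_f = T y` and `MM adj(MM) = δ`; otherwise the relevant cofactors vanish (or use `exists_mu` after replacing a
row of `Λ`: the entries of `adj(MM)` in the `Λ`-columns are `dl f Λ'`, and Cramer's rule). -/
theorem exists_proj_poly (f : X.Fi) (Λ : Matrix (Fin (n + 1)) (Fin (N + 1)) ℂ) :
    ∃ (P : Matrix (Fin (N + 1)) (Fin (N + 1)) (MvPolynomial (Fin (N + 1)) ℂ))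
      (Q : Matrix (Fin (N + 1)) (Fin X.k) (MvPolynomial (Fin (N + 1)) ℂ)) (δ : MvPolynomial (Fin (N + 1)) ℂ),
      (∀ y, ev δ y = X.dl f Λ y) ∧
      P + Q * (Matrix.of fun j i => MvPolynomial.pderiv i (X.F j)) = δ • (1 : Matrix _ _ _) ∧
      ∀ y ∈ X.Y, X.J y * P.map (fun G => ev G y) = 0 := by
  set Mp : Matrix (Fin (N + 1)) (Fin (N + 1)) (MvPolynomial (Fin (N + 1)) ℂ) := Matrix.of fun r i =>
    Sum.elim (fun a => MvPolynomial.C (Λ a i)) (fun j => MvPolynomial.pderiv i (X.F (f j)))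
      (X.eqv.symm r) with hMp
  set A : Matrix (Fin (N + 1)) (Fin (N + 1)) (MvPolynomial (Fin (N + 1)) ℂ) := Matrix.of fun r i =>
    Sum.elim (fun a => MvPolynomial.C (Λ a i)) (fun _ => 0) (X.eqv.symm r) with hA
  set S : Matrix (Fin (N + 1)) (Fin X.k) (MvPolynomial (Fin (N + 1)) ℂ) := Matrix.of fun r j =>
    Sum.elim (fun _ => 0) (fun l => if f l = j then 1 else 0) (X.eqv.symm r) with hS
  have hev : ∀ y : Cn (N + 1), (MvPolynomial.eval y.ofLp).mapMatrix Mp = X.MM f Λ y := fun y => by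
    ext r i
    simp only [hMp, MM, RingHom.mapMatrix_apply, Matrix.map_apply, Matrix.of_apply]
    rcases X.eqv.symm r with a | j <;> simp [J, ev]
  refine ⟨Mp.adjugate * A, Mp.adjugate * S, Mp.det, fun y => ?_, ?_, fun y hy => ?_⟩
  · rw [ev, RingHom.map_det, hev, dl]
  · rw [Matrix.mul_assoc, ← Matrix.mul_add, ← Matrix.adjugate_mul]
    congr 1
    ext r i : 2
    simp only [hMp, hA, hS, Matrix.add_apply, Matrix.mul_apply, Matrix.of_apply]
    rcases X.eqv.symm r with a | j <;> simp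
  · obtain ⟨U, hU⟩ := X.exists_frame hy
    obtain ⟨μ, -, h⟩ := X.exists_mu hy hU
    have e : (Mp.adjugate * A).map (fun G => ev G y) =
        (X.MM f Λ y).adjugate * (MvPolynomial.eval y.ofLp).mapMatrix A := by
      rw [← hev, ← RingHom.map_adjugate, ← map_mul]
      rfl
    rw [e, ← Matrix.mul_assoc]
    ext j i
    rw [Matrix.mul_apply, Matrix.zero_apply]
    refine Finset.sum_eq_zero fun r _ => ?_
    obtain ⟨r, rfl⟩ := X.eqv.surjective r
    rcases r with a | l
    · refine mul_eq_zero_of_left ?_ _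
      have h1 : (X.J y * (X.MM f Λ y).adjugate) j (X.eqv (Sum.inl a)) =
          ((X.MM f Λ y).updateRow (X.eqv (Sum.inl a)) (X.J y j)).det := by
        rw [← Matrix.cramer_transpose_apply, Matrix.cramer_eq_adjugate_mulVec,
          ← Matrix.adjugate_transpose, Matrix.mulVec_transpose]
        rfl
      have h2 : (X.MM f Λ y).updateRow (X.eqv (Sum.inl a)) (X.J y j) =
          X.MM f (Λ.updateRow a (X.J y j)) y := by
        ext r i
        obtain ⟨r, rfl⟩ := X.eqv.surjective r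
        rcases r with b | l <;> simp [MM, Matrix.updateRow_apply]
      rw [h1, h2, ← dl, h]
      refine mul_eq_zero_of_right _ (Matrix.det_eq_zero_of_row_eq_zero a fun b => ?_)
      simpa [Matrix.mul_apply] using congrFun (congrFun hU.1 j) b
    · simp [hA]

end Geo

end Crest.Agent.R269
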