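import Crest.Agent.R269.Defs
import Crest.Agent.R266.SCV

/-!
# Row 269, block A: calculus of Levi forms, viscosity inequalities (statements FROZEN)
-/

set_option autoImplicit false
set_option linter.unusedSectionVars false
set_option linter.unusedVariables false

noncomputable section

namespace Crest.Agent.R269

open Set Metric Filter Topology MeasureTheory Matrix
open Crest.AlgGeometry.ProjEmb
open scoped InnerProductSpace ContDiff ComplexOrder

section general

variable {V W : Type} [NormedAddCommGroup V] [NormedSpace ℝ V] [NormedSpace ℂ V] [IsScalarTower ℝ ℂ V]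
  [NormedAddCommGroup W] [NormedSpace ℝ W] [NormedSpace ℂ W] [IsScalarTower ℝ ℂ W]

theorem levi_congr {f g : V → ℝ} {x : V} (h : f =ᶠ[𝓝 x] g) (v : V) : levi f x v = levi g x v := by
  rw [levi, levi, h.fderiv.fderiv_eq]

theorem levi_const (c : ℝ) (x v : V) : levi (fun _ => c) x v = 0 := by
  simp [levi]

theorem lv1_ev {f : V → ℝ} {x : V} (hf : ContDiffAt ℝ 2 f x) : ∀ᶠ y in 𝓝 x, DifferentiableAt ℝ f y :=
  (hf.eventually (by simp)).mono fun y hy => hy.differentiableAt two_ne_zero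

theorem lv1_d {f : V → ℝ} {x : V} (hf : ContDiffAt ℝ 2 f x) : ContDiffAt ℝ 1 (fderiv ℝ f) x :=
  hf.fderiv_right (by norm_num)

theorem lv1_add {f g : V → ℝ} {x : V} (hf : ContDiffAt ℝ 2 f x) (hg : ContDiffAt ℝ 2 g x) :
    fderiv ℝ (fderiv ℝ fun y => f y + g y) x = fderiv ℝ (fderiv ℝ f) x + fderiv ℝ (fderiv ℝ g) x := by
  have h : (fderiv ℝ fun y => f y + g y) =ᶠ[𝓝 x] fun y => fderiv ℝ f y + fderiv ℝ g y := by
    filter_upwards [lv1_ev hf, lv1_ev hg] with y h1 h2 using fderiv_fun_add h1 h2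
  rw [h.fderiv_eq, fderiv_fun_add ((lv1_d hf).differentiableAt one_ne_zero) ((lv1_d hg).differentiableAt one_ne_zero)]

theorem lv1_mul {f : V → ℝ} {x : V} (hf : ContDiffAt ℝ 2 f x) (c : ℝ) :
    fderiv ℝ (fderiv ℝ fun y => c * f y) x = c • fderiv ℝ (fderiv ℝ f) x := by
  have h : (fderiv ℝ fun y => c * f y) =ᶠ[𝓝 x] fun y => c • fderiv ℝ f y := by
    filter_upwards [lv1_ev hf] with y h1 using fderiv_const_mul h1 c
  rw [h.fderiv_eq, fderiv_fun_const_smul ((lv1_d hf).differentiableAt one_ne_zero)]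

theorem levi_add {f g : V → ℝ} {x : V} (hf : ContDiffAt ℝ 2 f x) (hg : ContDiffAt ℝ 2 g x) (v : V) :
    levi (fun y => f y + g y) x v = levi f x v + levi g x v := by
  simp only [levi, lv1_add hf hg, _root_.add_apply]
  ring

theorem levi_sub {f g : V → ℝ} {x : V} (hf : ContDiffAt ℝ 2 f x) (hg : ContDiffAt ℝ 2 g x) (v : V) :
    levi (fun y => f y - g y) x v = levi f x v - levi g x v := by
  have h := levi_add (hf.sub hg) hg v
  simp only [sub_add_cancel] at h
  exact eq_sub_of_add_eq h.symm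

theorem levi_const_mul {f : V → ℝ} {x : V} (hf : ContDiffAt ℝ 2 f x) (c : ℝ) (v : V) :
    levi (fun y => c * f y) x v = c * levi f x v := by
  simp only [levi, lv1_mul hf c, _root_.smul_apply, smul_eq_mul]
  ring

theorem levi_sum {ι : Type} (s : Finset ι) {f : ι → V → ℝ} {x : V} (hf : ∀ i ∈ s, ContDiffAt ℝ 2 (f i) x) (v : V) :
    levi (fun y => ∑ i ∈ s, f i y) x v = ∑ i ∈ s, levi (f i) x v := by
  classical
  induction s using Finset.induction_on with
  | empty => simpa using levi_const 0 x v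
  | insert i s hi ih =>
    simp only [Finset.sum_insert hi]
    rw [levi_add (hf i (Finset.mem_insert_self _ _)) (ContDiffAt.sum fun j hj => hf j (Finset.mem_insert_of_mem hj)),
      ih fun j hj => hf j (Finset.mem_insert_of_mem hj)]

/-- Write `t = a + b I` and expand by real bilinearity. -/
theorem levi_smul (f : V → ℝ) (x v : V) (t : ℂ) : levi f x (t • v) = ‖t‖ ^ 2 * levi f x v := by
  have h : ∀ (s : ℂ) (w : V), s • w = s.re • w + s.im • Complex.I • w := fun s w => by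
    conv_lhs => rw [← Complex.re_add_im s]
    rw [add_smul, mul_smul, ← Complex.coe_algebraMap, algebraMap_smul, algebraMap_smul]
  rw [levi, levi, smul_smul, h t v, h (Complex.I * t) v, Complex.sq_norm, Complex.normSq_apply]
  simp only [map_add, map_smul, _root_.add_apply, _root_.smul_apply, smul_eq_mul, Complex.mul_re, Complex.mul_im, Complex.I_re,
    Complex.I_im]
  ring

theorem levi_comp_hol_d2 {A B C : Type} [NormedAddCommGroup A] [NormedSpace ℝ A] [NormedAddCommGroup B]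
    [NormedSpace ℝ B] [NormedAddCommGroup C] [NormedSpace ℝ C] {f : B → C} {φ : A → B} {x : A}
    (hf : ContDiffAt ℝ 2 f (φ x)) (hφ : ContDiffAt ℝ 2 φ x) (v w : A) :
    fderiv ℝ (fderiv ℝ (fun y => f (φ y))) x v w =
      fderiv ℝ (fderiv ℝ f) (φ x) (fderiv ℝ φ x v) (fderiv ℝ φ x w) +
        fderiv ℝ f (φ x) (fderiv ℝ (fderiv ℝ φ) x v w) := by
  have e1 : ∀ᶠ y in 𝓝 x, DifferentiableAt ℝ φ y :=
    (hφ.eventually (by simp)).mono fun y hy => hy.differentiableAt (by simp)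
  have e2 : ∀ᶠ y in 𝓝 (φ x), DifferentiableAt ℝ f y :=
    (hf.eventually (by simp)).mono fun y hy => hy.differentiableAt (by simp)
  have h1 : fderiv ℝ (fun y => f (φ y)) =ᶠ[𝓝 x] fun y => (fderiv ℝ f (φ y)).comp (fderiv ℝ φ y) := by
    filter_upwards [e1, hφ.continuousAt.eventually e2] with y h1 h2
    exact fderiv_comp y h2 h1
  rw [h1.fderiv_eq]
  have d1 : DifferentiableAt ℝ (fderiv ℝ f) (φ x) :=
    (hf.fderiv_right (m := 1) (by norm_num)).differentiableAt (by simp)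
  have d2 : DifferentiableAt ℝ (fderiv ℝ φ) x :=
    (hφ.fderiv_right (m := 1) (by norm_num)).differentiableAt (by simp)
  have h2 : HasFDerivAt (fun y => fderiv ℝ f (φ y))
      ((fderiv ℝ (fderiv ℝ f) (φ x)).comp (fderiv ℝ φ x)) x :=
    d1.hasFDerivAt.comp x (hφ.differentiableAt (by simp)).hasFDerivAt
  rw [(h2.clm_comp d2.hasFDerivAt).fderiv]
  simp [add_comm]

theorem levi_comp_hol_cx [CompleteSpace W] {φ : V → W} {x : V} (hφ : AnalyticAt ℂ φ x) (v w : V) :
    fderiv ℝ (fderiv ℝ φ) x v w = fderiv ℂ (fderiv ℂ φ) x v w := by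
  have hφ' : ContDiffAt ℝ 2 φ x := (hφ.contDiffAt (n := 2)).restrict_scalars ℝ
  have d2 : DifferentiableAt ℝ (fderiv ℝ φ) x :=
    (hφ'.fderiv_right (m := 1) (by norm_num)).differentiableAt (by simp)
  have h1 : HasFDerivAt (fun y => fderiv ℝ φ y w) ((fderiv ℝ (fderiv ℝ φ) x).flip w) x := by
    simpa using d2.hasFDerivAt.clm_apply (hasFDerivAt_const w x)
  have h2 : HasFDerivAt (fun y => fderiv ℂ φ y w) ((fderiv ℂ (fderiv ℂ φ) x).flip w) x := by
    simpa using hφ.fderiv.differentiableAt.hasFDerivAt.clm_apply (hasFDerivAt_const w x)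
  have h3 : (fun y => fderiv ℝ φ y w) =ᶠ[𝓝 x] fun y => fderiv ℂ φ y w := by
    filter_upwards [hφ.eventually_analyticAt] with y hy
    rw [hy.differentiableAt.fderiv_restrictScalars ℝ]; rfl
  have h4 := h1.unique ((h2.restrictScalars ℝ).congr_of_eventuallyEq h3)
  exact congrArg (fun L : V →L[ℝ] W => L v) h4

/-- Chain rule: `D²(f ∘ φ)(v,v) = D²f (φ'v, φ'v) + Df (D²φ (v,v))` and `D²φ (Iv, Iv) = - D²φ (v,v)`. -/
theorem levi_comp_hol [CompleteSpace W] {f : W → ℝ} {φ : V → W} {x : V} (hf : ContDiffAt ℝ 2 f (φ x))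
    (hφ : AnalyticAt ℂ φ x) (v : V) : levi (fun y => f (φ y)) x v = levi f (φ x) (fderiv ℂ φ x v) := by
  have hφ' : ContDiffAt ℝ 2 φ x := (hφ.contDiffAt (n := 2)).restrict_scalars ℝ
  have h1 : fderiv ℝ φ x = (fderiv ℂ φ x).restrictScalars ℝ := hφ.differentiableAt.fderiv_restrictScalars ℝ
  unfold levi
  rw [levi_comp_hol_d2 hf hφ', levi_comp_hol_d2 hf hφ', levi_comp_hol_cx hφ, levi_comp_hol_cx hφ, h1]
  simp only [ContinuousLinearMap.coe_restrictScalars', map_smul, _root_.smul_apply, smul_smul,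
    Complex.I_mul_I, neg_smul, one_smul, map_neg]
  ring

theorem levi_comp_real {h : ℝ → ℝ} {f : V → ℝ} {x : V} (hh : ContDiffAt ℝ 2 h (f x)) (hf : ContDiffAt ℝ 2 f x) (v : V) :
    levi (fun y => h (f y)) x v = deriv h (f x) * levi f x v +
      deriv (deriv h) (f x) * ((fderiv ℝ f x v ^ 2 + fderiv ℝ f x (Complex.I • v) ^ 2) / 4) := by
  have d1 : DifferentiableAt ℝ (deriv h) (f x) := by
    have := (hh.fderiv_right (m := 1) (by norm_num)).differentiableAt (by simp)
    exact (this.clm_apply (differentiableAt_const (1 : ℝ)))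
  have e : fderiv ℝ h = fun y => ContinuousLinearMap.toSpanSingleton ℝ (deriv h y) := by
    funext y; ext; simp
  have k1 : ∀ a : ℝ, fderiv ℝ h (f x) a = a * deriv h (f x) := by
    intro a; rw [e]; simp
  have k2 : ∀ a b : ℝ, fderiv ℝ (fderiv ℝ h) (f x) a b = a * b * deriv (deriv h) (f x) := by
    intro a b
    have d2 : DifferentiableAt ℝ (fderiv ℝ h) (f x) :=
      (hh.fderiv_right (m := 1) (by norm_num)).differentiableAt (by simp)
    have h1 : HasFDerivAt (fun y => fderiv ℝ h y b) ((fderiv ℝ (fderiv ℝ h) (f x)).flip b) (f x) := by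
      simpa using d2.hasFDerivAt.clm_apply (hasFDerivAt_const b (f x))
    have h2 : (fun y => fderiv ℝ h y b) = fun y => b * deriv h y := by
      funext y; rw [e]; simp
    rw [h2] at h1
    have h3 := h1.unique (d1.hasDerivAt.const_mul b).hasFDerivAt
    have h4 := congrArg (fun L : ℝ →L[ℝ] ℝ => L a) h3
    simp only [ContinuousLinearMap.flip_apply] at h4
    rw [h4]; simp [mul_assoc]
  unfold levi
  rw [levi_comp_hol_d2 hh hf, levi_comp_hol_d2 hh hf, k1, k1, k2, k2]
  ring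

theorem levi_re {g : V → ℂ} {x : V} (hg : AnalyticAt ℂ g x) (v : V) : levi (fun y => (g y).re) x v = 0 := by
  have h1 : ContDiffAt ℝ 2 (fun z : ℂ => z.re) (g x) := Complex.reCLM.contDiff.contDiffAt
  rw [levi_comp_hol (f := fun z : ℂ => z.re) h1 hg]
  have h2 : fderiv ℝ (fun z : ℂ => z.re) = fun _ => Complex.reCLM := by
    funext z; exact Complex.reCLM.fderiv
  unfold levi
  rw [h2]
  simp

theorem levi_log_norm_sq_scalar {g : V → ℂ} {x : V} (hg : AnalyticAt ℂ g x) (h0 : g x ≠ 0) (v : V) :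
    levi (fun y => Real.log (‖g y‖ ^ 2)) x v = 0 := by
  have h1 : AnalyticAt ℂ (fun y => 2 * Complex.log (g y / g x) + (Real.log (‖g x‖ ^ 2) : ℂ)) x := by
    refine (analyticAt_const.mul (AnalyticAt.clog (hg.div_const) ?_)).add analyticAt_const
    rw [div_self h0]; exact Complex.one_mem_slitPlane
  rw [← levi_re h1 v]
  refine levi_congr ?_ v
  filter_upwards [hg.continuousAt.eventually_ne h0] with y hy
  have hx : ‖g x‖ ≠ 0 := norm_ne_zero_iff.2 h0
  have hy' : ‖g y‖ ≠ 0 := norm_ne_zero_iff.2 hy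
  have e : (2 * Complex.log (g y / g x)).re = 2 * (Complex.log (g y / g x)).re := by simp
  rw [Complex.add_re, e, Complex.log_re, Complex.ofReal_re, norm_div, Real.log_div hy' hx, Real.log_pow, Real.log_pow]
  push_cast
  ring

theorem lv1_max {f : V → ℝ} {x : V} (hf : ContDiffAt ℝ 2 f x) (h : IsLocalMax f x) (v : V) :
    fderiv ℝ (fderiv ℝ f) x v v ≤ 0 := by
  have hl : ∀ t : ℝ, HasDerivAt (fun t : ℝ => x + t • v) v t := fun t => by
    simpa using ((hasDerivAt_id t).smul_const v).const_add x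
  have h0 : x + (0 : ℝ) • v = x := by simp
  have hc : Tendsto (fun t : ℝ => x + t • v) (𝓝 0) (𝓝 x) := by
    simpa [ContinuousAt] using (hl 0).continuousAt
  have h1 : deriv (fun t : ℝ => f (x + t • v)) =ᶠ[𝓝 0] fun t => fderiv ℝ f (x + t • v) v := by
    filter_upwards [hc.eventually (lv1_ev hf)] with t ht using (ht.hasFDerivAt.comp_hasDerivAt t (hl t)).deriv
  have h2 : HasDerivAt (fun t : ℝ => fderiv ℝ f (x + t • v) v) (fderiv ℝ (fderiv ℝ f) x v v) 0 := by
    simpa using (((lv1_d hf).differentiableAt one_ne_zero).hasFDerivAt.comp_hasDerivAt_of_eq 0 (hl 0)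
      h0.symm).clm_apply (hasDerivAt_const 0 v)
  have h3 : IsLocalMax (fun t : ℝ => f (x + t • v)) 0 := by
    have : ∀ᶠ t : ℝ in 𝓝 0, f (x + t • v) ≤ f x := hc.eventually h
    filter_upwards [this] with t ht using by simpa using ht
  by_contra hneg
  have h4 : deriv (deriv fun t : ℝ => f (x + t • v)) 0 = fderiv ℝ (fderiv ℝ f) x v v := by
    rw [h1.deriv_eq, h2.deriv]
  have h5 : ContinuousAt (fun t : ℝ => f (x + t • v)) 0 :=
    hf.continuousAt.comp_of_eq (hl 0).continuousAt h0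
  have h6 := isLocalMin_of_deriv_deriv_pos (h4 ▸ not_le.1 hneg) h3.deriv_eq_zero h5
  have h7 : (fun t : ℝ => f (x + t • v)) =ᶠ[𝓝 0] fun _ => f (x + (0 : ℝ) • v) := by
    filter_upwards [h3, h6] with t a b using le_antisymm a b
  rw [h7.deriv.deriv_eq] at h4
  simp [← h4] at hneg

theorem levi_nonpos_of_isLocalMax {f : V → ℝ} {x : V} (hf : ContDiffAt ℝ 2 f x) (h : IsLocalMax f x) (v : V) :
    levi f x v ≤ 0 := by
  have := lv1_max hf h v
  have := lv1_max hf h (Complex.I • v)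
  rw [levi]
  linarith

theorem continuousAt_levi {f : V → ℝ} {x : V} (hf : ContDiffAt ℝ 2 f x) (v : V) :
    ContinuousAt (fun p : V × V => levi f p.1 p.2) (x, v) := by
  have h : ContinuousAt (fun p : V × V => fderiv ℝ (fderiv ℝ f) p.1) (x, v) :=
    ((lv1_d hf).fderiv_right (m := 0) (by norm_num)).continuousAt.comp continuousAt_fst
  exact (((h.clm_apply continuousAt_snd).clm_apply continuousAt_snd).add
    ((h.clm_apply (continuousAt_snd.const_smul _)).clm_apply (continuousAt_snd.const_smul _))).div_const _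

/-- Second order Taylor formula, uniform on compact sets (uniform continuity of `D²f` near `K`, mean value inequality). -/
theorem taylor_unif [FiniteDimensional ℝ V] {f : V → ℝ} {K : Set V} (hK : IsCompact K) (hf : ∀ x ∈ K, ContDiffAt ℝ 2 f x)
    {ε : ℝ} (hε : 0 < ε) : ∃ δ > 0, ∀ x ∈ K, ∀ h : V, ‖h‖ ≤ δ →
      |f (x + h) - f x - fderiv ℝ f x h - fderiv ℝ (fderiv ℝ f) x h h / 2| ≤ ε * ‖h‖ ^ 2 := by
  have : ProperSpace V := FiniteDimensional.proper ℝ V
  have hU : IsOpen {x | ContDiffAt ℝ 2 f x} :=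
    isOpen_iff_mem_nhds.2 fun x hx => ContDiffAt.eventually hx (by simp)
  obtain ⟨δ₀, hδ₀, hsub'⟩ := hK.exists_cthickening_subset_open hU hf
  have hsub : ∀ {y : V}, y ∈ cthickening δ₀ K → ContDiffAt ℝ 2 f y := fun hy => hsub' hy
  have hc : ContinuousOn (fderiv ℝ (fderiv ℝ f)) (cthickening δ₀ K) := fun y hy =>
    (((hsub hy).fderiv_right (m := 1) (by norm_num)).fderiv_right (m := 0) (by norm_num)).continuousAt.continuousWithinAt
  have hu : UniformContinuousOn (fderiv ℝ (fderiv ℝ f)) (cthickening δ₀ K) :=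
    hK.cthickening.uniformContinuousOn_of_continuous hc
  obtain ⟨δ₁, hδ₁, huc⟩ := (Metric.uniformContinuousOn_iff_le (β := V →L[ℝ] V →L[ℝ] ℝ)).1 hu ε hε
  refine ⟨min δ₀ δ₁, lt_min hδ₀ hδ₁, fun x hx h hh => ?_⟩
  have hb : closedBall x ‖h‖ ⊆ cthickening δ₀ K :=
    (closedBall_subset_closedBall (hh.trans (min_le_left _ _))).trans (closedBall_subset_cthickening hx δ₀)
  have hx' : x ∈ closedBall x ‖h‖ := mem_closedBall_self (norm_nonneg h)
  set D := fderiv ℝ (fderiv ℝ f) x with hD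
  have h1 : ∀ y ∈ closedBall x ‖h‖, ‖fderiv ℝ f y - fderiv ℝ f x - D (y - x)‖ ≤ ε * ‖y - x‖ := by
    intro y hy
    refine (convex_closedBall x ‖h‖).norm_image_sub_le_of_norm_hasFDerivWithin_le'
      (f' := fderiv ℝ (fderiv ℝ f)) (fun z hz => ?_) (fun z hz => ?_) hx' hy
    · exact (((hsub (hb hz)).fderiv_right (m := 1) (by norm_num)).differentiableAt
        (by simp)).hasFDerivAt.hasFDerivWithinAt
    · rw [← dist_eq_norm]
      exact huc z (hb hz) x (hb hx') ((mem_closedBall.1 hz).trans (hh.trans (min_le_right _ _)))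
  have hm : ∀ t ∈ Icc (0 : ℝ) 1, x + t • h ∈ closedBall x ‖h‖ := by
    intro t ht
    rw [mem_closedBall, dist_eq_norm, add_sub_cancel_left, norm_smul, Real.norm_of_nonneg ht.1]
    exact mul_le_of_le_one_left (norm_nonneg h) ht.2
  have h2 := norm_image_sub_le_of_norm_deriv_le_segment_01'
    (f := fun t : ℝ => f (x + t • h) - t * fderiv ℝ f x h - t ^ 2 / 2 * D h h)
    (f' := fun t => (fderiv ℝ f (x + t • h) - fderiv ℝ f x - D (x + t • h - x)) h) (C := ε * ‖h‖ ^ 2)
    (fun t ht => by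
      have q1 : HasDerivAt (fun t : ℝ => x + t • h) h t := by
        simpa using ((hasDerivAt_id t).smul_const h).const_add x
      have q2 := (((hsub (hb (hm t ht))).differentiableAt (by simp)).hasFDerivAt).comp_hasDerivAt t q1
      have q3 := (q2.sub ((hasDerivAt_id t).mul_const (fderiv ℝ f x h))).sub
        (((hasDerivAt_pow 2 t).div_const 2).mul_const (D h h))
      refine (q3.congr_deriv ?_).hasDerivWithinAt
      simp)
    (fun t ht => by
      have ht' : t ∈ Icc (0 : ℝ) 1 := Ico_subset_Icc_self ht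
      refine (ContinuousLinearMap.le_opNorm _ _).trans ?_
      have q := (h1 _ (hm t ht')).trans (mul_le_mul_of_nonneg_left
        (show ‖x + t • h - x‖ ≤ ‖h‖ by rw [← dist_eq_norm]; exact hm t ht') hε.le)
      calc _ ≤ ε * ‖h‖ * ‖h‖ := mul_le_mul_of_nonneg_right q (norm_nonneg h)
        _ = ε * ‖h‖ ^ 2 := by ring)
  rw [Real.norm_eq_abs] at h2
  convert h2 using 2
  simp
  ring

end general

section euclid

variable {ι : Type} [Fintype ι]

lemma levi3_inner (y v : EuclideanSpace ℂ ι) : ⟪y, v⟫_ℝ = (⟪y, v⟫_ℂ).re := by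
  simp only [PiLp.inner_apply, Complex.re_sum]
  rfl

lemma levi3_fderiv (y v : EuclideanSpace ℂ ι) :
    fderiv ℝ (fun x : EuclideanSpace ℂ ι => ‖x‖ ^ 2) y v = 2 * (⟪y, v⟫_ℂ).re := by
  rw [fderiv_norm_sq_apply, ← levi3_inner]; simp

theorem levi_norm_sq (y v : EuclideanSpace ℂ ι) : levi (fun x : EuclideanSpace ℂ ι => ‖x‖ ^ 2) y v = ‖v‖ ^ 2 := by
  have h : ∀ w : EuclideanSpace ℂ ι,
      fderiv ℝ (fderiv ℝ (fun x : EuclideanSpace ℂ ι => ‖x‖ ^ 2)) y w w = 2 * ‖w‖ ^ 2 := fun w => by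
    have e : fderiv ℝ (fun x : EuclideanSpace ℂ ι => ‖x‖ ^ 2) =
        ((2 : ℝ) • innerSL ℝ : EuclideanSpace ℂ ι →L[ℝ] EuclideanSpace ℂ ι →L[ℝ] ℝ) := by
      ext a b
      rw [levi3_fderiv, ← levi3_inner]; simp
    rw [e, ContinuousLinearMap.fderiv, ← real_inner_self_eq_norm_sq]
    rfl
  rw [levi, h, h, norm_smul, Complex.norm_I]
  ring

theorem contDiffAt_log_norm_sq {y : EuclideanSpace ℂ ι} (hy : y ≠ 0) :
    ContDiffAt ℝ ∞ (fun x : EuclideanSpace ℂ ι => Real.log (‖x‖ ^ 2)) y :=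
  (contDiff_norm_sq ℝ).contDiffAt.log (pow_ne_zero 2 (norm_ne_zero_iff.2 hy))

theorem fderiv_log_norm_sq {y : EuclideanSpace ℂ ι} (hy : y ≠ 0) (v : EuclideanSpace ℂ ι) :
    fderiv ℝ (fun x : EuclideanSpace ℂ ι => Real.log (‖x‖ ^ 2)) y v = 2 * (⟪y, v⟫_ℂ).re / ‖y‖ ^ 2 := by
  rw [fderiv.log ((contDiff_norm_sq ℝ (n := 1)).differentiable one_ne_zero y) (pow_ne_zero 2 (norm_ne_zero_iff.2 hy)),
    ContinuousLinearMap.smul_apply, levi3_fderiv, smul_eq_mul]
  ring

theorem levi_log_norm_sq {y : EuclideanSpace ℂ ι} (hy : y ≠ 0) (v : EuclideanSpace ℂ ι) :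
    levi (fun x : EuclideanSpace ℂ ι => Real.log (‖x‖ ^ 2)) y v = om y v := by
  have h0 : ‖y‖ ≠ 0 := norm_ne_zero_iff.2 hy
  rw [levi_comp_real (h := Real.log) (f := fun x : EuclideanSpace ℂ ι => ‖x‖ ^ 2)
    (Real.contDiffAt_log.2 (pow_ne_zero 2 h0)) (contDiff_norm_sq ℝ).contDiffAt, levi_norm_sq, levi3_fderiv,
    levi3_fderiv, Real.deriv_log', deriv_inv, om, inner_smul_right, Complex.sq_norm ⟪y, v⟫_ℂ, Complex.normSq_apply]
  simp only [Complex.mul_re, Complex.I_re, Complex.I_im]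
  field_simp
  ring

end euclid

section om

variable {V : Type} [NormedAddCommGroup V] [InnerProductSpace ℂ V]

theorem om_nonneg (y v : V) : 0 ≤ om y v := by
  refine div_nonneg (sub_nonneg.2 ?_) (by positivity)
  rw [← mul_pow, mul_comm]
  exact pow_le_pow_left₀ (norm_nonneg _) (norm_inner_le_norm y v) 2

theorem om_le {y : V} (v : V) : om y v ≤ ‖v‖ ^ 2 / ‖y‖ ^ 2 := by
  by_cases hy : ‖y‖ = 0
  · simp [om, hy]
  · have : om y v = ‖v‖ ^ 2 / ‖y‖ ^ 2 - ‖⟪y, v⟫_ℂ‖ ^ 2 / ‖y‖ ^ 4 := by rw [om]; field_simp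
    rw [this]
    exact sub_le_self _ (by positivity)

theorem om_smul_smul (y v : V) {t : ℂ} (ht : t ≠ 0) : om (t • y) (t • v) = om y v := by
  have h : ‖t‖ ≠ 0 := norm_ne_zero_iff.2 ht
  simp only [om, inner_smul_left, inner_smul_right, norm_mul, norm_smul, Complex.norm_conj, RCLike.norm_conj]
  by_cases hy : ‖y‖ = 0
  · simp [hy]
  · field_simp

theorem om_smul (y v : V) (t : ℂ) : om y (t • v) = ‖t‖ ^ 2 * om y v := by
  simp only [om, inner_smul_right, norm_mul, norm_smul]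
  ring

theorem om_add_self (y v : V) (t : ℂ) : om y (v + t • y) = om y v := by
  have e1 : ‖v + t • y‖ ^ 2 = ‖v‖ ^ 2 + 2 * (t * (starRingEnd ℂ) ⟪y, v⟫_ℂ).re + ‖t‖ ^ 2 * ‖y‖ ^ 2 := by
    rw [norm_add_sq (𝕜 := ℂ), inner_smul_right, inner_conj_symm, norm_smul, mul_pow]; rfl
  have e2 : ⟪y, v + t • y⟫_ℂ = ⟪y, v⟫_ℂ + t * (‖y‖ ^ 2 : ℝ) := by
    rw [inner_add_right, inner_smul_right, inner_self_eq_norm_sq_to_K]; simp
  rw [om, om, e1, e2]
  congr 1
  generalize ⟪y, v⟫_ℂ = z
  generalize ‖y‖ ^ 2 = r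
  simp only [Complex.sq_norm, Complex.normSq_apply, Complex.add_re, Complex.add_im, Complex.mul_re, Complex.mul_im,
    Complex.ofReal_re, Complex.ofReal_im, Complex.conj_re, Complex.conj_im]
  ring

theorem om_of_orth {y v : V} (h : ⟪y, v⟫_ℂ = 0) : om y v = ‖v‖ ^ 2 / ‖y‖ ^ 2 := by
  rw [om, h]
  by_cases hy : ‖y‖ = 0
  · simp [hy]
  · simp only [norm_zero]; field_simp; ring

theorem om_pos {y v : V} (hy : y ≠ 0) (h : v ∉ Submodule.span ℂ {y}) : 0 < om y v := by
  have h0 : 0 < ‖y‖ := norm_pos_iff.2 hy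
  set t : ℂ := -(⟪y, v⟫_ℂ / ⟪y, y⟫_ℂ) with ht
  have h1 : ⟪y, v + t • y⟫_ℂ = 0 := by
    have : ⟪y, y⟫_ℂ ≠ 0 := inner_self_ne_zero.2 hy
    rw [inner_add_right, inner_smul_right, ht]; field_simp; ring
  have h2 : v + t • y ≠ 0 := fun e => h (by
    rw [eq_neg_of_add_eq_zero_left e]
    exact Submodule.neg_mem _ (Submodule.smul_mem _ _ (Submodule.mem_span_singleton_self y)))
  rw [← om_add_self y v t, om_of_orth h1]
  have := norm_pos_iff.2 h2
  positivity

end om

/-- The Hermitian matrix of the Levi form: `S(eᵢ,eⱼ) - I S(eᵢ, I eⱼ)`, `S(v,w) = (D²f(v,w) + D²f(Iv,Iw)) / 4`. -/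
def leviM {m : ℕ} (f : Cn m → ℝ) (x : Cn m) : Matrix (Fin m) (Fin m) ℂ := fun i j =>
  let S : Cn m → Cn m → ℝ := fun v w =>
    (fderiv ℝ (fderiv ℝ f) x v w + fderiv ℝ (fderiv ℝ f) x (Complex.I • v) (Complex.I • w)) / 4
  (S (EuclideanSpace.single i 1) (EuclideanSpace.single j 1) : ℂ) -
    Complex.I * S (EuclideanSpace.single i 1) (Complex.I • EuclideanSpace.single j 1)

/-- Uses the symmetry of `D²f` (`ContDiffAt.isSymmSndFDerivAt`). -/
theorem leviM_herm {m : ℕ} {f : Cn m → ℝ} {x : Cn m} (hf : ContDiffAt ℝ 2 f x) : (leviM f x).IsHermitian := by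
  have hs := hf.isSymmSndFDerivAt (by simp)
  ext i j
  simp only [conjTranspose_apply, leviM, smul_smul, Complex.I_mul_I, neg_smul, one_smul, map_neg]
  rw [hs.eq (EuclideanSpace.single j 1) (EuclideanSpace.single i 1),
    hs.eq (Complex.I • EuclideanSpace.single j 1) (Complex.I • EuclideanSpace.single i 1),
    hs.eq (EuclideanSpace.single j 1) (Complex.I • EuclideanSpace.single i 1),
    hs.eq (Complex.I • EuclideanSpace.single j 1) (EuclideanSpace.single i 1)]
  apply Complex.ext <;> simp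
  ring

theorem qf_leviM {m : ℕ} {f : Cn m → ℝ} {x : Cn m} (hf : ContDiffAt ℝ 2 f x) (v : Cn m) :
    qf (leviM f x) v = levi f x v := by
  have h1 : v = ∑ i, ((v i).re • EuclideanSpace.single i (1 : ℂ) +
      (v i).im • (Complex.I • EuclideanSpace.single i (1 : ℂ))) := by
    ext k
    simp [Finset.sum_apply, Pi.single_apply, Finset.sum_add_distrib]
  have h2 : Complex.I • v = ∑ i, ((v i).re • (Complex.I • EuclideanSpace.single i (1 : ℂ)) -
      (v i).im • EuclideanSpace.single i (1 : ℂ)) := by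
    ext k
    simp [Finset.sum_apply, Pi.single_apply, Finset.sum_sub_distrib]
    apply Complex.ext <;> simp
  have key : ∀ (D : Cn m →L[ℝ] Cn m →L[ℝ] ℝ) (a : Fin m → Cn m),
      D (∑ i, a i) (∑ i, a i) = ∑ i, ∑ j, D (a i) (a j) := fun D a => by
    simp only [map_sum, ContinuousLinearMap.sum_apply]
    exact Finset.sum_comm
  rw [levi, h2, key]
  conv_rhs => rw [h1, key, ← h1]
  simp only [qf, dotProduct, mulVec, Finset.mul_sum, Complex.re_sum, ← Finset.sum_add_distrib, Finset.sum_div]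
  refine Finset.sum_congr rfl fun i _ => Finset.sum_congr rfl fun j _ => ?_
  simp only [leviM, smul_smul, Complex.I_mul_I, neg_smul, one_smul, map_neg, map_add, map_sub, map_smul,
    ContinuousLinearMap.add_apply, ContinuousLinearMap.sub_apply, ContinuousLinearMap.smul_apply, smul_eq_mul,
    Pi.star_apply, Complex.mul_re, Complex.mul_im, Complex.sub_re, Complex.sub_im, Complex.ofReal_re,
    Complex.ofReal_im, Complex.I_re, Complex.I_im, Complex.star_def, Complex.conj_re, Complex.conj_im]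
  ring

theorem continuousAt_leviM {m : ℕ} {f : Cn m → ℝ} {x : Cn m} (hf : ContDiffAt ℝ 2 f x) : ContinuousAt (leviM f) x := by
  have h : ContinuousAt (fderiv ℝ (fderiv ℝ f)) x :=
    ((hf.fderiv_right (m := 1) (by norm_num)).fderiv_right (m := 0) (by norm_num)).continuousAt
  have h' : ∀ v w : Cn m, ContinuousAt (fun y => fderiv ℝ (fderiv ℝ f) y v w) x := fun v w =>
    (h.clm_apply continuousAt_const).clm_apply continuousAt_const
  refine continuousAt_pi.2 fun i => continuousAt_pi.2 fun j => ?_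
  exact (Complex.continuous_ofReal.continuousAt.comp (((h' _ _).add (h' _ _)).div_const 4)).sub
    (continuousAt_const.mul (Complex.continuous_ofReal.continuousAt.comp (((h' _ _).add (h' _ _)).div_const 4)))

theorem bell_amgm {n : ℕ} (hn : 1 ≤ n) {z : Fin n → ℝ} (hz : ∀ i, 0 ≤ z i) :
    ∏ i, z i ≤ ((∑ i, z i) / n) ^ n := by
  have hn0 : (0 : ℝ) < n := by exact_mod_cast hn
  have h := Real.geom_mean_le_arith_mean_weighted Finset.univ (fun _ => (n : ℝ)⁻¹) z
    (fun _ _ => by positivity) (by simp [hn0.ne']) fun i _ => hz i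
  rw [Real.finsetProd_rpow _ _ fun i _ => hz i, ← Finset.mul_sum] at h
  have h0 : 0 ≤ ∏ i, z i := Finset.prod_nonneg fun i _ => hz i
  have := pow_le_pow_left₀ (Real.rpow_nonneg h0 _) h n
  rwa [Real.rpow_inv_natCast_pow h0 (by omega), ← div_eq_inv_mul] at this

theorem bell_psd {n : ℕ} (hn : 1 ≤ n) {A : Matrix (Fin n) (Fin n) ℂ} (hA : A.PosSemidef) {c : ℝ} (hc : c ≤ A.det.re)
    (v : Fin n → Cn n) : 0 ≤ ∑ j, qf A (v j) ∧ c * ‖(colM v).det‖ ^ 2 ≤ ((∑ j, qf A (v j)) / n) ^ n := by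
  have hB := hA.conjTranspose_mul_mul_same (colM v)
  have h1 : ∑ j, qf A (v j) = ∑ j, hB.1.eigenvalues j := by
    have h := congrArg Complex.re hB.1.trace_eq_sum_eigenvalues
    rw [Complex.re_sum, Matrix.trace, Complex.re_sum] at h
    refine Eq.trans (Finset.sum_congr rfl fun j _ => ?_) (h.trans (by simp))
    rw [Matrix.mul_assoc]
    rfl
  have h2 : A.det.re * ‖(colM v).det‖ ^ 2 = ∏ j, hB.1.eigenvalues j := by
    have h := hB.1.det_eq_prod_eigenvalues
    rw [det_mul, det_mul, det_conjTranspose, mul_comm (star _), mul_assoc,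
      show star (colM v).det * (colM v).det = _ from Complex.conj_mul' _] at h
    have := congrArg Complex.re h
    rw [← Complex.ofReal_pow, Complex.re_mul_ofReal] at this
    rw [this]
    norm_cast
  rw [h1]
  refine ⟨Finset.sum_nonneg fun j _ => hB.eigenvalues_nonneg j, ?_⟩
  exact (mul_le_mul_of_nonneg_right hc (sq_nonneg _)).trans
    (h2.trans_le (bell_amgm hn hB.eigenvalues_nonneg))

theorem bell_real {n : ℕ} (hn : 1 ≤ n) {l : Fin n → ℝ} {c : ℝ}
    (h : ∀ s : Fin n → ℝ, (∀ j, 0 < s j) →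
      0 ≤ ∑ j, s j * l j ∧ c * ∏ j, s j ≤ ((∑ j, s j * l j) / n) ^ n) :
    (∀ j, 0 ≤ l j) ∧ c ≤ ∏ j, l j := by
  have hn0 : (0 : ℝ) < n := by exact_mod_cast hn
  have h1 : ∀ j, 0 ≤ l j := fun j => by
    have hc : Continuous fun ε : ℝ => ∑ i, (if i = j then 1 else ε) * l i :=
      continuous_finsetSum _ fun i _ => by split_ifs <;> fun_prop
    have := ge_of_tendsto ((hc.tendsto 0).mono_left (nhdsWithin_le_nhds (s := Ioi 0)))
      (eventually_nhdsWithin_of_forall fun ε hε =>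
        (h (fun i => if i = j then 1 else ε) fun i => by
          split_ifs
          exacts [one_pos, hε]).1)
    simpa using this
  refine ⟨h1, ?_⟩
  have hc : Continuous fun ε : ℝ => ∏ i, (l i + ε) := by fun_prop
  have := ge_of_tendsto ((hc.tendsto 0).mono_left (nhdsWithin_le_nhds (s := Ioi 0)))
    (eventually_nhdsWithin_of_forall (p := fun ε => c ≤ ∏ i, (l i + ε)) fun ε hε => by
      have hp : ∀ i, 0 < l i + ε := fun i => add_pos_of_nonneg_of_pos (h1 i) hε
      obtain ⟨h2, h3⟩ := h (fun i => (l i + ε)⁻¹) fun i => inv_pos.2 (hp i)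
      have h4 : (∑ j, (l j + ε)⁻¹ * l j) / n ≤ 1 := by
        rw [div_le_one hn0]
        refine (Finset.sum_le_sum (g := fun _ => (1 : ℝ)) fun j _ => ?_).trans (by simp)
        rw [inv_mul_le_one₀ (hp j)]
        exact le_add_of_nonneg_right (le_of_lt hε)
      have h5 := h3.trans (pow_le_one₀ (div_nonneg h2 hn0.le) h4)
      rwa [Finset.prod_inv_distrib, mul_inv_le_iff₀ (Finset.prod_pos fun i _ => hp i), one_mul] at h5)
  simpa using this

/-- Bellman form of `A ≥ 0, det A ≥ c` (diagonalise `A`; for `⇒` use the frames `tⱼ uⱼ` of eigenvectors,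
for `⇐` AM-GM for the eigenvalues of `Vᴴ A V`). -/
theorem bellman_iff {n : ℕ} (hn : 1 ≤ n) {A : Matrix (Fin n) (Fin n) ℂ} (hA : A.IsHermitian) {c : ℝ} (hc : 0 ≤ c) :
    (∀ v : Fin n → Cn n, LinearIndependent ℂ v →
        0 ≤ ∑ j, qf A (v j) ∧ c * ‖(colM v).det‖ ^ 2 ≤ ((∑ j, qf A (v j)) / n) ^ n) ↔
      A.PosSemidef ∧ c ≤ A.det.re := by
  refine ⟨fun h => ?_, fun h v _ => bell_psd hn h.1 h.2 v⟩
  have key := bell_real hn (l := hA.eigenvalues) (c := c) fun s hs => by
    have hs' : ∀ j, ((√(s j) : ℝ) : ℂ) ≠ 0 := fun j =>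
      Complex.ofReal_ne_zero.2 (Real.sqrt_ne_zero'.2 (hs j))
    have h1 := h (fun j => ((√(s j) : ℝ) : ℂ) • hA.eigenvectorBasis j)
      (hA.eigenvectorBasis.toBasis.linearIndependent.units_smul fun j => Units.mk0 _ (hs' j))
    have e1 : ∀ j, qf A (((√(s j) : ℝ) : ℂ) • hA.eigenvectorBasis j) = s j * hA.eigenvalues j :=
      fun j => by
        rw [hA.eigenvalues_eq j, qf, WithLp.ofLp_smul, mulVec_smul, star_smul, smul_dotProduct,
          dotProduct_smul, smul_smul, Complex.star_def, Complex.conj_ofReal, ← Complex.ofReal_mul,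
          Real.mul_self_sqrt (hs j).le, smul_eq_mul, Complex.re_ofReal_mul]
        rfl
    have e2 : colM (fun j => ((√(s j) : ℝ) : ℂ) • hA.eigenvectorBasis j) =
        (hA.eigenvectorUnitary : Matrix (Fin n) (Fin n) ℂ) * diagonal fun j => ((√(s j) : ℝ) : ℂ) := by
      ext i j
      simp [colM, mul_comm]
    have e3 : ‖(colM fun j => ((√(s j) : ℝ) : ℂ) • hA.eigenvectorBasis j).det‖ ^ 2 = ∏ j, s j := by
      rw [e2, det_mul, norm_mul, CStarRing.norm_of_mem_unitary
        (det_of_mem_unitary hA.eigenvectorUnitary.2), one_mul, det_diagonal, norm_prod,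
        ← Finset.prod_pow]
      refine Finset.prod_congr rfl fun j _ => ?_
      rw [Complex.norm_real, Real.norm_eq_abs, sq_abs, Real.sq_sqrt (hs j).le]
    simpa only [e1, e3] using h1
  refine ⟨hA.posSemidef_iff_eigenvalues_nonneg.2 key.1, key.2.trans_eq ?_⟩
  rw [hA.det_eq_prod_eigenvalues]
  exact ((congrArg Complex.re (Complex.ofReal_prod _ _).symm).trans (Complex.ofReal_re _)).symm

/-- The same for arbitrary (possibly degenerate) families. -/
theorem bellman_of_psd {n : ℕ} (hn : 1 ≤ n) {A : Matrix (Fin n) (Fin n) ℂ} (hA : A.PosSemidef) {c : ℝ} (hc : c ≤ A.det.re)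
    (v : Fin n → Cn n) : 0 ≤ ∑ j, qf A (v j) ∧ c * ‖(colM v).det‖ ^ 2 ≤ ((∑ j, qf A (v j)) / n) ^ n := by
  exact bell_psd hn hA hc v

section VB

variable {n : ℕ} {φ ψ : Cn n → ℝ} {V V' : Set (Cn n)} {c c' : (Fin n → Cn n) → ℝ}

theorem VB.mono (h : VB φ V c) (hV : V' ⊆ V) (hc : ∀ v, c' v ≤ c v) : VB φ V' c' := by
  exact fun w hw q hq hm v => (hc v).trans (h w (hV hw) q hq hm v)

theorem VB.of_local (h : ∀ w ∈ V, ∃ ψ V', w ∈ V' ∧ VB ψ V' c ∧ φ =ᶠ[𝓝 w] ψ) : VB φ V c := by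
  intro w hw q hq hm v
  obtain ⟨ψ, V', h1, h2, h3⟩ := h w hw
  exact h2 w h1 q hq (hm.congr (h3.sub EventuallyEq.rfl)) v

theorem vb_of_classical (h : ∀ w ∈ V, ContDiffAt ℝ 2 φ w ∧ ∀ v : Fin n → Cn n, c v ≤ ∑ j, levi φ w (v j)) : VB φ V c := by
  intro w hw q hq hm v
  refine ((h w hw).2 v).trans (Finset.sum_le_sum fun j _ => ?_)
  have := levi_nonpos_of_isLocalMax ((h w hw).1.sub hq) hm (v j)
  rwa [levi_sub (h w hw).1 hq, sub_nonpos] at this

theorem VB.classical (h : VB φ V c) {w : Cn n} (hw : w ∈ V) (hφ : ContDiffAt ℝ 2 φ w) (v : Fin n → Cn n) :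
    c v ≤ ∑ j, levi φ w (v j) := by
  exact h w hw φ hφ (by simpa using isLocalMax_const) v

/-- Test `φ` with `q - ψ`. -/
theorem VB.add_smooth (h : VB φ V c) (hψ : ∀ w ∈ V, ContDiffAt ℝ 2 ψ w ∧ ∀ v : Fin n → Cn n, c' v ≤ ∑ j, levi ψ w (v j)) :
    VB (fun x => φ x + ψ x) V (fun v => c v + c' v) := by
  intro w hw q hq hm v
  have h1 := h w hw (fun x => q x - ψ x) (hq.sub (hψ w hw).1)
    (hm.congr (Eventually.of_forall fun x => by ring)) v
  simp only [levi_sub hq (hψ w hw).1, Finset.sum_sub_distrib] at h1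
  linarith [(hψ w hw).2 v]

theorem VB.const_mul (h : VB φ V c) {t : ℝ} (ht : 0 ≤ t) : VB (fun x => t * φ x) V (fun v => t * c v) := by
  rcases ht.eq_or_lt with rfl | ht
  · exact vb_of_classical fun w _ => by simp only [zero_mul]; exact ⟨contDiffAt_const, fun v => by simp [levi_const]⟩
  intro w hw q hq hm v
  have h1 := h w hw (fun x => t⁻¹ * q x) (contDiffAt_const.mul hq) (by
    filter_upwards [hm] with x hx
    have := mul_le_mul_of_nonneg_left hx (inv_pos.2 ht).le
    simpa only [mul_sub, inv_mul_cancel_left₀ ht.ne'] using this) v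
  simp only [levi_const_mul hq, ← Finset.mul_sum] at h1
  exact (le_inv_mul_iff₀ ht).1 h1

theorem VB.max (h : VB φ V c) (h' : VB ψ V c) : VB (fun x => max (φ x) (ψ x)) V c := by
  intro w hw q hq hm v
  rcases le_total (ψ w) (φ w) with e | e
  · refine h w hw q hq ?_ v
    filter_upwards [hm] with x hx
    simp only [max_eq_left e] at hx
    linarith [le_max_left (φ x) (ψ x)]
  · refine h' w hw q hq ?_ v
    filter_upwards [hm] with x hx
    simp only [max_eq_right e] at hx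
    linarith [le_max_right (φ x) (ψ x)]

end VB

end Crest.Agent.R269
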