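import Crest.Agent.R269.A.Alg
import Crest.Agent.R269.A.Levi

/-!
# Row 269, block A: the cone is a complex manifold; charts (statements FROZEN)
-/

set_option autoImplicit false
set_option linter.unusedSectionVars false
set_option linter.unusedVariables false

noncomputable section

namespace Crest.Agent.R269

open Set Metric Filter Topology MeasureTheory Matrix
open Crest.AlgGeometry.ProjEmb
open scoped InnerProductSpace ContDiff

namespace Geo

variable {N n : ℕ} (X : Geo N n)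

/-- conjugating a projection by a local biholomorphism -/
theorem retr_psi {V W : Type} [NormedAddCommGroup V] [NormedSpace ℂ V] [CompleteSpace V] [NormedAddCommGroup W]
    [NormedSpace ℂ W] [CompleteSpace W] {Ψ : V → W} {y : V} (hΨ : AnalyticAt ℂ Ψ y)
    (hb : Function.Bijective (fderiv ℂ Ψ y)) (E : W →L[ℂ] W) (hE : E (Ψ y) = Ψ y) :
    ∃ ψ : V → V, AnalyticAt ℂ ψ y ∧ ψ y = y ∧ (∀ᶠ x in 𝓝 y, Ψ (ψ x) = E (Ψ x)) ∧
      ∀ᶠ x in 𝓝 y, E (Ψ x) = Ψ x → ψ x = x := by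
  set e : V ≃L[ℂ] W := ContinuousLinearEquiv.ofBijective (fderiv ℂ Ψ y) (LinearMap.ker_eq_bot.2 hb.1)
    (LinearMap.range_eq_top.2 hb.2)
  have hs : HasStrictFDerivAt Ψ (e : V →L[ℂ] W) y := hΨ.hasStrictFDerivAt
  have hc : ContDiffAt ℂ ω Ψ y := hΨ.contDiffAt
  have ha : AnalyticAt ℂ (hs.localInverse Ψ e y) (Ψ y) :=
    (hc.to_localInverse hs.hasFDerivAt (by simp)).analyticAt
  have hEΨ : AnalyticAt ℂ (fun x => E (Ψ x)) y := (E.analyticAt _).comp hΨ
  refine ⟨fun x => hs.localInverse Ψ e y (E (Ψ x)), ?_, ?_, ?_, ?_⟩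
  · exact AnalyticAt.comp_of_eq ha hEΨ hE
  · simp only [hE, hs.localInverse_apply_image]
  · have := hEΨ.continuousAt.tendsto
    simp only [hE] at this
    exact this.eventually hs.eventually_right_inverse
  · filter_upwards [hs.eventually_left_inverse] with x hx h
    rw [h, hx]

/-- uniqueness for a linear system of first order -/
theorem retr_gron {m : ℕ} {s : Type} [Fintype s] {y : Cn m} (g : s → Cn m → ℂ) (b : Fin m → s → s → Cn m → ℂ)
    (hb : ∀ i j k, ContinuousAt (b i j k) y) (hg : ∀ j, AnalyticAt ℂ (g j) y) (h0 : ∀ j, g j y = 0)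
    (h : ∀ᶠ x in 𝓝 y, ∀ j v, fderiv ℂ (g j) x v = ∑ i, ∑ k, v i * b i j k x * g k x) :
    ∀ᶠ x in 𝓝 y, ∀ j, g j x = 0 := by
  have hB : ContinuousAt (fun x => ∑ j, ∑ i, ∑ k, ‖b i j k x‖) y := by
    refine tendsto_finsetSum _ fun j _ => tendsto_finsetSum _ fun i _ => tendsto_finsetSum _ fun k _ => (hb i j k).norm
  set K := (∑ j, ∑ i, ∑ k, ‖b i j k y‖) + 1
  have h1 : ∀ᶠ x in 𝓝 y, ∑ j, ∑ i, ∑ k, ‖b i j k x‖ < K := hB.eventually (gt_mem_nhds (lt_add_one _))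
  have h2 : ∀ᶠ x in 𝓝 y, ∀ j, AnalyticAt ℂ (g j) x := eventually_all.2 fun j => (hg j).eventually_analyticAt
  obtain ⟨r, hr, hball⟩ := Metric.eventually_nhds_iff_ball.1 (h.and (h1.and h2))
  filter_upwards [ball_mem_nhds y hr] with x hx j
  set v := x - y with hv
  have hmem : ∀ t ∈ Icc (0 : ℝ) 1, y + t • v ∈ ball y r := fun t ht =>
    (convex_ball y r).add_smul_sub_mem (mem_ball_self hr) hx ht
  have hd : ∀ t ∈ Icc (0 : ℝ) 1, HasDerivAt (fun t : ℝ => fun j => g j (y + t • v))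
      (fun j => fderiv ℂ (g j) (y + t • v) v) t := by
    intro t ht
    refine hasDerivAt_pi.2 fun j => ?_
    have h3 := (((hball _ (hmem t ht)).2.2 j).differentiableAt.hasFDerivAt.restrictScalars ℝ)
    have h4 : HasDerivAt (fun t : ℝ => y + t • v) v t := by
      simpa using ((hasDerivAt_id t).smul_const v).const_add y
    exact h3.comp_hasDerivAt t h4
  have := eq_zero_of_abs_deriv_le_mul_abs_self_of_eq_zero_right (K := ‖v‖ * K) (a := 0) (b := 1)
    (fun t ht => (hd t ht).continuousAt.continuousWithinAt)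
    (fun t ht => (hd t (Ico_subset_Icc_self ht)).hasDerivWithinAt) (by ext j; simp [h0]) ?_ 1 (by simp)
  · simpa [hv] using congrFun this j
  intro t ht
  obtain ⟨h3, h4, -⟩ := hball _ (hmem t (Ico_subset_Icc_self ht))
  set z := y + t • v
  have hK : 0 ≤ K := by positivity
  refine (pi_norm_le_iff_of_nonneg (by positivity)).2 fun j => ?_
  rw [h3]
  calc ‖∑ i, ∑ k, v i * b i j k z * g k z‖ ≤ ∑ i, ∑ k, ‖v‖ * ‖b i j k z‖ * ‖fun j => g j z‖ := by
        refine (norm_sum_le _ _).trans (Finset.sum_le_sum fun i _ => (norm_sum_le _ _).trans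
          (Finset.sum_le_sum fun k _ => ?_))
        rw [norm_mul, norm_mul]
        gcongr
        · exact PiLp.norm_apply_le v i
        · exact norm_le_pi_norm (fun j => g j z) k
    _ = ‖v‖ * (∑ i, ∑ k, ‖b i j k z‖) * ‖fun j => g j z‖ := by
        simp only [Finset.mul_sum, Finset.sum_mul]
    _ ≤ _ := by
        gcongr
        exact (Finset.single_le_sum (f := fun j => ∑ i, ∑ k, ‖b i j k z‖) (fun _ _ => by positivity)
          (Finset.mem_univ j)).trans h4.le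

/-- the matrix `[Λ ; 0]` -/
def retrL (Λ : Matrix (Fin (n + 1)) (Fin (N + 1)) ℂ) : Matrix (Fin (N + 1)) (Fin (N + 1)) ℂ :=
  fun r => Sum.elim (fun a => Λ a) (fun _ => 0) (X.eqv.symm r)

theorem retr_MM_T (f : X.Fi) (Λ : Matrix (Fin (n + 1)) (Fin (N + 1)) ℂ) {x v : Cn (N + 1)} (hv : v ∈ X.T x) :
    X.MM f Λ x *ᵥ v.ofLp = X.retrL Λ *ᵥ v.ofLp := by
  ext r
  obtain ⟨r, rfl⟩ := X.eqv.surjective r
  rcases r with a | i
  · simp [MM, retrL, mulVec]
  · simpa [MM, retrL, mulVec] using congrFun (X.mem_T.1 hv) (f i)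

theorem retr_mem_T {f : X.Fi} {Λ : Matrix (Fin (n + 1)) (Fin (N + 1)) ℂ} {x w : Cn (N + 1)} (hx : x ∈ X.Y)
    (hd : X.dl f Λ x ≠ 0) {v : Fin (N + 1) → ℂ} (h : X.MM f Λ x *ᵥ w.ofLp = X.retrL Λ *ᵥ v) : w ∈ X.T x := by
  obtain ⟨U, hU⟩ := X.exists_frame hx
  obtain ⟨μ, -, hμ⟩ := X.exists_mu hx hU
  have hu : IsUnit (Λ * U).det := by
    rw [hμ] at hd
    exact (right_ne_zero_of_mul hd).isUnit
  set t : Cn (N + 1) := WithLp.toLp 2 (U *ᵥ ((Λ * U)⁻¹ *ᵥ (Λ *ᵥ v))) with ht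
  have h1 : t ∈ X.T x := by
    rw [X.mem_T, ht, WithLp.ofLp_toLp, mulVec_mulVec, hU.1, zero_mulVec]
  have h2 : Λ *ᵥ t.ofLp = Λ *ᵥ v := by
    rw [ht, WithLp.ofLp_toLp, mulVec_mulVec, mulVec_mulVec, mul_nonsing_inv _ hu, one_mulVec]
  have h3 : X.retrL Λ *ᵥ t.ofLp = X.retrL Λ *ᵥ v := by
    ext r
    obtain ⟨r, rfl⟩ := X.eqv.surjective r
    rcases r with a | i
    · simpa [retrL, mulVec] using congrFun h2 a
    · simp [retrL, mulVec]
  have h4 := (mulVec_injective_iff_isUnit.2 ((isUnit_iff_isUnit_det _).2 (Ne.isUnit hd)))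
    (h.trans ((X.retr_MM_T f Λ h1).trans h3).symm)
  rwa [WithLp.ofLp_injective 2 h4]

/-- the polynomial map `(Λ x, F_f x)` -/
def retrP (f : X.Fi) (Λ : Matrix (Fin (n + 1)) (Fin (N + 1)) ℂ) (r : Fin (N + 1)) : MvPolynomial (Fin (N + 1)) ℂ :=
  Sum.elim (fun a => ∑ i, MvPolynomial.C (Λ a i) * MvPolynomial.X i) (fun i => X.F (f i)) (X.eqv.symm r)

theorem retr_ev_pderiv (f : X.Fi) (Λ : Matrix (Fin (n + 1)) (Fin (N + 1)) ℂ) (x : Cn (N + 1)) (r i : Fin (N + 1)) :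
    ev (MvPolynomial.pderiv i (X.retrP f Λ r)) x = X.MM f Λ x r i := by
  obtain ⟨r, rfl⟩ := X.eqv.surjective r
  rcases r with a | j
  · simp [retrP, MM, ev, MvPolynomial.pderiv_X, Pi.single_apply, apply_ite]
  · simp [retrP, MM, J]

theorem retr_fderiv (f : X.Fi) (Λ : Matrix (Fin (n + 1)) (Fin (N + 1)) ℂ) (x v : Cn (N + 1)) :
    fderiv ℂ (fun x r => ev (X.retrP f Λ r) x) x v = X.MM f Λ x *ᵥ v.ofLp := by
  ext r
  rw [fderiv_pi fun r => (analyticAt_ev _ x).differentiableAt, ContinuousLinearMap.pi_apply, fderiv_ev]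
  simp only [dev, retr_ev_pderiv, mulVec, dotProduct]

/-- derivations preserving `I` -/
theorem retr_der (f : X.Fi) (Λ : Matrix (Fin (n + 1)) (Fin (N + 1)) ℂ) {G : MvPolynomial (Fin (N + 1)) ℂ}
    (hG : G ∈ X.I) : ∃ D : Fin (N + 1) → MvPolynomial (Fin (N + 1)) ℂ, (∀ i, D i ∈ X.I) ∧
      ∀ x u v : Cn (N + 1), X.MM f Λ x *ᵥ u.ofLp = X.retrL Λ *ᵥ v.ofLp →
        X.dl f Λ x ^ 2 * dev G x u = ∑ i, v i * ev (D i) x := by
  set A : Matrix (Fin (N + 1)) (Fin (N + 1)) (MvPolynomial (Fin (N + 1)) ℂ) :=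
    fun r i => MvPolynomial.pderiv i (X.retrP f Λ r) with hA
  have hAx : ∀ x : Cn (N + 1), (MvPolynomial.eval x.ofLp).mapMatrix A = X.MM f Λ x := fun x => by
    ext r i
    exact X.retr_ev_pderiv f Λ x r i
  set P := A.adjugate * (X.retrL Λ).map MvPolynomial.C with hP
  have hPx : ∀ (x : Cn (N + 1)) l i, ev (P l i) x = ((X.MM f Λ x).adjugate * X.retrL Λ) l i := fun x l i => by
    have : (MvPolynomial.eval x.ofLp).mapMatrix P = (X.MM f Λ x).adjugate * X.retrL Λ := by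
      rw [hP, map_mul, RingHom.map_adjugate, hAx]
      congr 1
      ext a b
      simp
    exact congrFun (congrFun this l) i
  have hDx : ∀ (x : Cn (N + 1)) i, ev (A.det * ∑ l, MvPolynomial.pderiv l G * P l i) x =
      X.dl f Λ x * ∑ l, ev (MvPolynomial.pderiv l G) x * ((X.MM f Λ x).adjugate * X.retrL Λ) l i := fun x i => by
    simp only [← hPx]
    simp only [dl, ← hAx, ← RingHom.map_det, ev, map_mul, map_sum]
  refine ⟨fun i => A.det * ∑ l, MvPolynomial.pderiv l G * P l i, fun i => X.mem_of_vanish fun x hx => ?_,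
    fun x u v h => ?_⟩
  · rw [hDx]
    by_cases hd : X.dl f Λ x = 0
    · rw [hd, zero_mul]
    have h1 : (WithLp.toLp 2 fun l => ((X.MM f Λ x).adjugate * X.retrL Λ) l i : Cn (N + 1)) ∈ X.T x := by
      refine X.retr_mem_T hx hd (v := X.dl f Λ x • Pi.single i 1) ?_
      have : (fun l => ((X.MM f Λ x).adjugate * X.retrL Λ) l i) =
          ((X.MM f Λ x).adjugate * X.retrL Λ) *ᵥ Pi.single i 1 := by
        ext l
        simp
      rw [WithLp.ofLp_toLp, this, mulVec_mulVec, ← Matrix.mul_assoc, mul_adjugate, smul_mul, Matrix.one_mul,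
        smul_mulVec, mulVec_smul, dl]
    have h2 := X.grad x hx.1 hx.2 _ (fun j => by rw [← X.J_mulVec, X.mem_T.1 h1]; rfl) G hG
    exact mul_eq_zero_of_right _ h2
  · have h1 : X.dl f Λ x • u.ofLp = ((X.MM f Λ x).adjugate * X.retrL Λ) *ᵥ v.ofLp := by
      rw [← mulVec_mulVec, ← h, mulVec_mulVec, adjugate_mul, smul_mulVec, one_mulVec, dl]
    have h2 : ∀ l, X.dl f Λ x * u l = ∑ i, ((X.MM f Λ x).adjugate * X.retrL Λ) l i * v i := fun l => congrFun h1 l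
    simp only [hDx]
    simp only [dev, Finset.mul_sum]
    rw [Finset.sum_comm]
    refine Finset.sum_congr rfl fun l _ => ?_
    calc _ = X.dl f Λ x * ev (MvPolynomial.pderiv l G) x * (X.dl f Λ x * u l) := by ring
      _ = _ := by
        rw [h2, Finset.mul_sum]
        exact Finset.sum_congr rfl fun i _ => by ring

/-- `exists_retr` along the fibres of `Λ` -/
theorem exists_retr' {y : Cn (N + 1)} (hy : y ∈ X.Y) {f : X.Fi} {Λ : Matrix (Fin (n + 1)) (Fin (N + 1)) ℂ}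
    (hd : X.dl f Λ y ≠ 0) :
    ∃ ψ : Cn (N + 1) → Cn (N + 1), AnalyticAt ℂ ψ y ∧ ψ y = y ∧ (∀ᶠ x in 𝓝 y, ψ x ∈ X.Y) ∧
      (∀ᶠ x in 𝓝 y, x ∈ X.Y → ψ x = x) ∧ (∀ v, fderiv ℂ ψ y v ∈ X.T y) ∧ (∀ v ∈ X.T y, fderiv ℂ ψ y v = v) ∧
      ∀ᶠ x in 𝓝 y, Λ *ᵥ (ψ x).ofLp = Λ *ᵥ x.ofLp := by
  have hu : IsUnit (X.MM f Λ y) := (isUnit_iff_isUnit_det _).2 (Ne.isUnit hd)
  set Ψ : Cn (N + 1) → Fin (N + 1) → ℂ := fun x r => ev (X.retrP f Λ r) x with hΨ
  have hΨa : ∀ x, AnalyticAt ℂ Ψ x := fun x => analyticAt_pi_iff.2 fun r => analyticAt_ev _ x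
  set E : (Fin (N + 1) → ℂ) →L[ℂ] (Fin (N + 1) → ℂ) :=
    ContinuousLinearMap.pi fun r => Sum.elim (fun _ => ContinuousLinearMap.proj r) (fun _ => 0) (X.eqv.symm r) with hE
  have hEY : ∀ x ∈ X.Y, E (Ψ x) = Ψ x := fun x hx => by
    ext r
    obtain ⟨r, rfl⟩ := X.eqv.surjective r
    rcases r with a | i
    · simp [hE]
    · simp [hE, hΨ, retrP, hx.2]
  have hEM : ∀ x v : Cn (N + 1), E (X.MM f Λ x *ᵥ v.ofLp) = X.retrL Λ *ᵥ v.ofLp := fun x v => by
    ext r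
    obtain ⟨r, rfl⟩ := X.eqv.surjective r
    rcases r with a | i <;> simp [hE, MM, retrL, mulVec]
  obtain ⟨ψ, h1, h2, h3, h4⟩ := retr_psi (hΨa y) (by
    have : ⇑(fderiv ℂ Ψ y) = (X.MM f Λ y).mulVec ∘ WithLp.ofLp := funext fun v => X.retr_fderiv f Λ y v
    rw [this]
    exact Function.Bijective.comp ⟨mulVec_injective_iff_isUnit.2 hu, mulVec_surjective_iff_isUnit.2 hu⟩
      (WithLp.ofLp_bijective 2)) E (hEY y hy)
  have h5 : ∀ᶠ x in 𝓝 y, AnalyticAt ℂ ψ x ∧ ∀ v : Cn (N + 1),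
      X.MM f Λ (ψ x) *ᵥ (fderiv ℂ ψ x v).ofLp = X.retrL Λ *ᵥ v.ofLp := by
    filter_upwards [h1.eventually_analyticAt, h3.eventually_nhds] with x hx hx'
    refine ⟨hx, fun v => ?_⟩
    have e1 : fderiv ℂ (Ψ ∘ ψ) x = fderiv ℂ (E ∘ Ψ) x := Filter.EventuallyEq.fderiv_eq hx'
    rw [fderiv_comp x (hΨa _).differentiableAt hx.differentiableAt,
      fderiv_comp x E.differentiableAt (hΨa _).differentiableAt, E.fderiv] at e1
    have e2 := congrArg (fun L => L v) e1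
    simp only [ContinuousLinearMap.comp_apply, hΨ, retr_fderiv] at e2
    rw [e2, hEM]
  have h6 := h5.self_of_nhds.2
  rw [h2] at h6
  refine ⟨ψ, h1, h2, ?_, h4.mono fun x hx hx' => hx (hEY x hx'), fun v => X.retr_mem_T hy hd (h6 v),
    fun v hv => WithLp.ofLp_injective 2 (mulVec_injective_iff_isUnit.2 hu ((h6 v).trans (X.retr_MM_T f Λ hv).symm)), ?_⟩
  · obtain ⟨m, G, hG⟩ := Submodule.fg_iff_exists_fin_generating_family.1 (IsNoetherian.noetherian X.I)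
    have hGI : ∀ j, G j ∈ X.I := fun j => hG ▸ Submodule.subset_span ⟨j, rfl⟩
    have hrep : ∀ H ∈ X.I, ∃ c : Fin m → MvPolynomial (Fin (N + 1)) ℂ, ∀ x, ev H x = ∑ k, ev (c k) x * ev (G k) x := by
      intro H hH
      rw [← hG] at hH
      obtain ⟨c, rfl⟩ := Ideal.mem_span_range_iff_exists_fun.1 hH
      exact ⟨c, fun x => by simp only [ev, map_sum, map_mul]⟩
    choose D hD hD' using fun j => X.retr_der f Λ (hGI j)
    choose c hc using fun i j => hrep _ (hD j i)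
    have hδ : ContinuousAt (fun x => X.dl f Λ (ψ x)) y := (X.analyticAt_dl f Λ _).continuousAt.comp h1.continuousAt
    have hδ0 : X.dl f Λ (ψ y) ≠ 0 := by rwa [h2]
    have h7 := retr_gron (y := y) (fun j x => ev (G j) (ψ x)) (fun i j k x => ev (c i j k) (ψ x) / X.dl f Λ (ψ x) ^ 2)
      (fun i j k => ((analyticAt_ev _ _).continuousAt.comp h1.continuousAt).div (hδ.pow 2) (pow_ne_zero 2 hδ0))
      (fun j => (analyticAt_ev _ _).comp h1) (fun j => by rw [h2]; exact X.zero y hy.1 hy.2 _ (hGI j)) (by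
        filter_upwards [h5, hδ.eventually_ne hδ0] with x hx hx' j v
        have e1 : fderiv ℂ (fun x => ev (G j) (ψ x)) x v = dev (G j) (ψ x) (fderiv ℂ ψ x v) := by
          rw [← fderiv_ev, fderiv_fun_comp x (analyticAt_ev _ _).differentiableAt hx.1.differentiableAt]
          rfl
        refine mul_left_cancel₀ (pow_ne_zero 2 hx') ?_
        rw [e1, hD' j _ _ _ (hx.2 v), Finset.mul_sum]
        refine Finset.sum_congr rfl fun i _ => ?_
        rw [hc, Finset.mul_sum, Finset.mul_sum]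
        refine Finset.sum_congr rfl fun k _ => ?_
        field_simp)
    filter_upwards [h7, h1.continuousAt.eventually_ne (show ψ y ≠ 0 by rw [h2]; exact hy.1)] with x hx hx'
    refine ⟨hx', fun j => ?_⟩
    obtain ⟨c, hc⟩ := hrep _ (X.mem j)
    simp [hc, hx]
  · filter_upwards [h3] with x hx
    ext a
    simpa [hE, hΨ, retrP, ev, mulVec, dotProduct] using congrFun hx (X.eqv (Sum.inl a))

/-- Local holomorphic retraction.  Take `f, β` with `δ = dl f (sel β) y ≠ 0`; `Ψ x = (sel β x, F_f x)` is a local biholomorphism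
(inverse function theorem, `HasStrictFDerivAt.localInverse`, analytic by `osgood` or `ContDiffAt.to_localInverse` with `n = ω`);
`ψ = Ψ⁻¹ ∘ (pr₁, 0) ∘ Ψ`.  `ψ x ∈ Y`: put `σ w = Ψ⁻¹ (w, 0)`.  With `P, δ` of `exists_proj_poly`, the derivation
`D_i G = ∑_l P l i * ∂_l G` maps `I` to `I` (`grad`, `J P = 0`, `mem_of_vanish`), and `∂_{w_a} (G ∘ σ) = (D_{β a} G / δ) ∘ σ`; so the set of
germs `(G / δ ^ k) ∘ σ`, `G ∈ I`, is stable under partial derivatives and vanishes at `w₀`; all iterated derivatives vanish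
at `w₀` (on complex lines through `w₀`: one variable identity theorem), so `G ∘ σ = 0` near `w₀`. -/
theorem exists_retr {y : Cn (N + 1)} (hy : y ∈ X.Y) :
    ∃ ψ : Cn (N + 1) → Cn (N + 1), AnalyticAt ℂ ψ y ∧ ψ y = y ∧ (∀ᶠ x in 𝓝 y, ψ x ∈ X.Y) ∧
      (∀ᶠ x in 𝓝 y, x ∈ X.Y → ψ x = x) ∧ (∀ v, fderiv ℂ ψ y v ∈ X.T y) ∧ ∀ v ∈ X.T y, fderiv ℂ ψ y v = v := by
  obtain ⟨i, hi⟩ : ∃ i, y i ≠ 0 := by
    by_contra! h
    exact hy.1 (by ext i; exact h i)
  obtain ⟨f, β, -, hd⟩ := X.exists_beta hy hi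
  obtain ⟨ψ, h1, h2, h3, h4, h5, h6, -⟩ := X.exists_retr' hy hd
  exact ⟨ψ, h1, h2, h3, h4, h5, h6⟩

/-- Derivatives of maps into `Y` are tangent (differentiate `F (γ x) = 0`). -/
theorem fderiv_mem_T {V : Type} [NormedAddCommGroup V] [NormedSpace ℂ V] {γ : V → Cn (N + 1)} {x : V}
    (hγ : DifferentiableAt ℂ γ x) (h : ∀ᶠ z in 𝓝 x, γ z ∈ X.Y) (v : V) : fderiv ℂ γ x v ∈ X.T (γ x) := by
  rw [mem_T]
  funext j
  have h1 : (fun z => ev (X.F j) (γ z)) =ᶠ[𝓝 x] fun _ => 0 := h.mono fun z hz => hz.2 j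
  have h2 := ((analyticAt_ev (X.F j) (γ x)).differentiableAt.hasFDerivAt.comp x hγ.hasFDerivAt).fderiv
  rw [X.J_mulVec, ← fderiv_ev]
  have h3 : fderiv ℂ (ev (X.F j) ∘ γ) x = 0 := by
    rw [show fderiv ℂ (ev (X.F j) ∘ γ) x = fderiv ℂ (fun _ : V => (0 : ℂ)) x from h1.fderiv_eq]
    simp
  rw [h3] at h2
  exact (congrArg (fun L : V →L[ℂ] ℂ => L v) h2).symm

theorem loc2_tendsto {y : Cn (N + 1)} {ψ : Cn (N + 1) → Cn (N + 1)} (h1 : AnalyticAt ℂ ψ y) (h2 : ψ y = y)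
    (h3 : ∀ᶠ x in 𝓝 y, ψ x ∈ X.Y) : Tendsto ψ (𝓝 y) (𝓝[X.Y] y) :=
  tendsto_nhdsWithin_iff.2 ⟨by simpa only [ContinuousAt, h2] using h1.continuousAt, h3⟩

/-- Compose with the retraction. -/
theorem fderiv_congr_Y {W : Type} [NormedAddCommGroup W] [NormedSpace ℂ W] {y : Cn (N + 1)} (hy : y ∈ X.Y)
    {f g : Cn (N + 1) → W} (hf : DifferentiableAt ℂ f y) (hg : DifferentiableAt ℂ g y) (h : f =ᶠ[𝓝[X.Y] y] g)
    {v : Cn (N + 1)} (hv : v ∈ X.T y) : fderiv ℂ f y v = fderiv ℂ g y v := by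
  obtain ⟨ψ, h1, h2, h3, -, -, h6⟩ := X.exists_retr hy
  have e : fderiv ℂ (f ∘ ψ) y = fderiv ℂ (g ∘ ψ) y := (h.comp_tendsto (X.loc2_tendsto h1 h2 h3)).fderiv_eq
  rw [fderiv_comp y (h2.symm ▸ hf) h1.differentiableAt, fderiv_comp y (h2.symm ▸ hg) h1.differentiableAt,
    h2] at e
  simpa [h6 v hv] using congrArg (fun L : Cn (N + 1) →L[ℂ] W => L v) e

theorem fderiv_real_congr_Y {y : Cn (N + 1)} (hy : y ∈ X.Y) {f g : Cn (N + 1) → ℝ} (hf : DifferentiableAt ℝ f y)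
    (hg : DifferentiableAt ℝ g y) (h : f =ᶠ[𝓝[X.Y] y] g) {v : Cn (N + 1)} (hv : v ∈ X.T y) :
    fderiv ℝ f y v = fderiv ℝ g y v := by
  obtain ⟨ψ, h1, h2, h3, -, -, h6⟩ := X.exists_retr hy
  have e : fderiv ℝ (f ∘ ψ) y = fderiv ℝ (g ∘ ψ) y := (h.comp_tendsto (X.loc2_tendsto h1 h2 h3)).fderiv_eq
  have d := h1.differentiableAt.hasFDerivAt.restrictScalars ℝ
  rw [fderiv_comp y (h2.symm ▸ hf) d.differentiableAt, fderiv_comp y (h2.symm ▸ hg) d.differentiableAt,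
    h2, d.fderiv] at e
  simpa [h6 v hv] using congrArg (fun L : Cn (N + 1) →L[ℝ] ℝ => L v) e

theorem levi_congr_Y {y : Cn (N + 1)} (hy : y ∈ X.Y) {f g : Cn (N + 1) → ℝ} (hf : ContDiffAt ℝ 2 f y)
    (hg : ContDiffAt ℝ 2 g y) (h : f =ᶠ[𝓝[X.Y] y] g) {v : Cn (N + 1)} (hv : v ∈ X.T y) : levi f y v = levi g y v := by
  obtain ⟨ψ, h1, h2, h3, -, -, h6⟩ := X.exists_retr hy
  have e := levi_congr (f := fun x => f (ψ x)) (g := fun x => g (ψ x))
    ((X.loc2_tendsto h1 h2 h3).eventually h) v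
  rwa [levi_comp_hol (h2.symm ▸ hf) h1, levi_comp_hol (h2.symm ▸ hg) h1, h2, h6 v hv] at e

/-- With the retraction `ψ` and `ν = x - ψ x`: `dψ ν = o(ν)`, `F x = J y ν + o(ν)` (strict differentiability), so
`J Q F x = J y ν + o(ν)`; `ν ↦ (J y ν, dψ ν)` is injective. -/
theorem zero_of_Q {y : Cn (N + 1)} (hy : y ∈ X.Y) {Q : Matrix (Fin (N + 1)) (Fin X.k) ℂ} (hQ : X.J y * Q * X.J y = X.J y) :
    ∀ᶠ x in 𝓝 y, X.J y *ᵥ (Q *ᵥ fun j => ev (X.F j) x) = 0 → x ∈ X.Y := by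
  obtain ⟨ψ, h1, h2, h3, h4, -, h6⟩ := X.exists_retr hy
  let A : (Fin X.k → ℂ) →L[ℂ] (Fin X.k → ℂ) := LinearMap.toContinuousLinearMap (X.J y * Q).mulVecLin
  let F : Cn (N + 1) → Fin X.k → ℂ := fun x j => ev (X.F j) x
  have hF : HasStrictFDerivAt F (ContinuousLinearMap.pi fun j => fderiv ℂ (ev (X.F j)) y) y :=
    hasStrictFDerivAt_pi.2 fun j => (analyticAt_ev (X.F j) y).hasStrictFDerivAt
  have hΦ := (A.hasStrictFDerivAt.comp y hF).prodMk h1.hasStrictFDerivAt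
  set D := (A.comp (ContinuousLinearMap.pi fun j => fderiv ℂ (ev (X.F j)) y)).prod (fderiv ℂ ψ y) with hD
  have hk : LinearMap.ker (D : Cn (N + 1) →ₗ[ℂ] (Fin X.k → ℂ) × Cn (N + 1)) = ⊥ := by
    refine LinearMap.ker_eq_bot'.2 fun v hv => ?_
    have a1 : (X.J y * Q) *ᵥ (fun j => fderiv ℂ (ev (X.F j)) y v) = 0 := congrArg Prod.fst hv
    have a2 : fderiv ℂ ψ y v = 0 := congrArg Prod.snd hv
    have a3 : (fun j => fderiv ℂ (ev (X.F j)) y v) = X.J y *ᵥ v.ofLp :=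
      funext fun j => by rw [X.J_mulVec, fderiv_ev]
    rw [a3, mulVec_mulVec, hQ] at a1
    rw [← h6 v a1, a2]
  obtain ⟨K, hK, hA⟩ := LinearMap.exists_antilipschitzWith _ hk
  have hK' : (0 : ℝ) < K := hK
  have t1 : Tendsto ψ (𝓝 y) (𝓝 y) := by simpa only [ContinuousAt, h2] using h1.continuousAt
  have t2 : Tendsto (fun x => (x, ψ x)) (𝓝 y) (𝓝 (y, y)) := tendsto_id.prodMk_nhds t1
  filter_upwards [t2.eventually (hΦ.isLittleO.def (c := 1 / (2 * K)) (by positivity)), h3,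
    t1.eventually h4] with x a b c hx
  have e1 : A (F x) = 0 := by rw [← hx, mulVec_mulVec]; rfl
  have e2 : A (F (ψ x)) = 0 := by rw [show F (ψ x) = 0 from funext b.2, map_zero]
  simp only [e1, e2, c b, sub_self, zero_sub, norm_neg] at a
  have a' : ‖x - ψ x‖ ≤ K * ‖D (x - ψ x)‖ := ZeroHomClass.bound_of_antilipschitz _ hA _
  have a'' : K * ‖D (x - ψ x)‖ ≤ ‖x - ψ x‖ / 2 :=
    (mul_le_mul_of_nonneg_left a hK'.le).trans_eq (by field_simp)
  have : x = ψ x := sub_eq_zero.1 (norm_le_zero_iff.1 (by linarith))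
  rw [this]
  exact b

/-- Local analytic projections onto the tangent spaces (`P / δ` of `exists_proj_poly`). -/
theorem exists_local_proj {y : Cn (N + 1)} (hy : y ∈ X.Y) :
    ∃ P : Cn (N + 1) → (Cn (N + 1) →L[ℂ] Cn (N + 1)), AnalyticAt ℂ P y ∧
      ∀ᶠ x in 𝓝[X.Y] y, (∀ v, P x v ∈ X.T x) ∧ ∀ v ∈ X.T x, P x v = v := by
  obtain ⟨f, hf⟩ := X.exists_dv_ne hy
  obtain ⟨β, hβ⟩ : ∃ β, X.dl f (sel β) y ≠ 0 := by
    by_contra h
    push Not at h
    exact hf (by ext β; exact h β)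
  obtain ⟨P, Q, δ, h1, h2, h3⟩ := X.exists_proj_poly f (sel β)
  have hδ : ev δ y ≠ 0 := by rwa [h1]
  let E : Fin (N + 1) → Fin (N + 1) → (Cn (N + 1) →L[ℂ] Cn (N + 1)) := fun i l =>
    (EuclideanSpace.proj l : Cn (N + 1) →L[ℂ] ℂ).smulRight (EuclideanSpace.single i 1)
  have hE : ∀ (x v : Cn (N + 1)), ((∑ i, ∑ l, ((ev δ x)⁻¹ * ev (P i l) x) • E i l) v).ofLp =
      (ev δ x)⁻¹ • (P.map fun G => ev G x) *ᵥ v.ofLp := fun x v => by
    funext i
    simp [E, mulVec, dotProduct, Finset.mul_sum, Pi.single_apply, mul_assoc]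
  refine ⟨fun x => ∑ i, ∑ l, ((ev δ x)⁻¹ * ev (P i l) x) • E i l, ?_, ?_⟩
  · exact Finset.analyticAt_fun_sum _ fun i _ => Finset.analyticAt_fun_sum _ fun l _ =>
      (((analyticAt_ev δ y).fun_inv hδ).fun_mul (analyticAt_ev _ y)).fun_smul analyticAt_const
  · filter_upwards [self_mem_nhdsWithin,
      mem_nhdsWithin_of_mem_nhds ((analyticAt_ev δ y).continuousAt.eventually_ne hδ)] with x hx hx'
    refine ⟨fun v => ?_, fun v hv => ?_⟩
    · rw [mem_T, hE, mulVec_smul, mulVec_mulVec, h3 x hx, zero_mulVec, smul_zero]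
    · have e : (P.map fun G => ev G x) + (Q.map fun G => ev G x) * X.J x = ev δ x • 1 := by
        ext i l
        have := congrArg (fun M => MvPolynomial.eval x.ofLp (M i l)) h2
        simpa [ev, J, mul_apply, one_apply, apply_ite (MvPolynomial.eval x.ofLp)] using this
      have e' := congrArg (· *ᵥ v.ofLp) e
      simp only [add_mulVec, ← mulVec_mulVec, X.mem_T.1 hv, mulVec_zero, add_zero, smul_mulVec,
        one_mulVec] at e'
      ext1 i
      have := congrFun (hE x v) i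
      rw [e', smul_smul, inv_mul_cancel₀ hx', one_smul] at this
      exact this

theorem loc3_est1 {m : ℕ} (K L : Submodule ℂ (Cn m)) (P Q : Cn m →L[ℂ] Cn m) (hP : ∀ v ∈ K, P v = v)
    (hQ : ∀ v, Q v ∈ L) : ‖(1 - L.starProjection) * K.starProjection‖ ≤ ‖P - Q‖ := by
  refine ContinuousLinearMap.opNorm_le_bound _ (norm_nonneg _) fun v => ?_
  have hu : K.starProjection v ∈ K := K.starProjection_apply_mem v
  have e : ((1 - L.starProjection) * K.starProjection) v =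
      Lᗮ.starProjection ((P - Q) (K.starProjection v)) := by
    rw [Submodule.starProjection_orthogonal', ContinuousLinearMap.mul_apply,
      ContinuousLinearMap.sub_apply P, hP _ hu, map_sub (1 - L.starProjection),
      ContinuousLinearMap.sub_apply 1 _ (Q _), Submodule.starProjection_eq_self_iff.2 (hQ _)]
    simp
  rw [e]
  refine (Submodule.norm_starProjection_apply_le _ _).trans (((P - Q).le_opNorm _).trans ?_)
  exact mul_le_mul_of_nonneg_left (Submodule.norm_starProjection_apply_le _ _) (norm_nonneg _)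

theorem loc3_est2 {m : ℕ} (K L : Submodule ℂ (Cn m)) (P Q : Cn m →L[ℂ] Cn m) (hP : ∀ v ∈ K, P v = v)
    (hP' : ∀ v, P v ∈ K) (hQ : ∀ v ∈ L, Q v = v) (hQ' : ∀ v, Q v ∈ L) :
    ‖K.starProjection - L.starProjection‖ ≤ 2 * ‖P - Q‖ := by
  have h1 := loc3_est1 K L P Q hP hQ'
  have h2 := loc3_est1 L K Q P hQ hP'
  have e : K.starProjection - L.starProjection = (1 - L.starProjection) * K.starProjection -
      star ((1 - K.starProjection) * L.starProjection) := by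
    rw [star_mul, star_sub, star_one, (isSelfAdjoint_starProjection K).star_eq,
      (isSelfAdjoint_starProjection L).star_eq]
    noncomm_ring
  rw [e]
  refine (norm_sub_le _ _).trans ?_
  rw [norm_star, norm_sub_rev Q P] at *
  linarith

theorem loc3_cont : ContinuousOn (fun y => (X.T y).starProjection) X.Y := by
  intro y hy
  obtain ⟨P, hP, hev⟩ := X.exists_local_proj hy
  have h0 := hev.self_of_nhdsWithin hy
  rw [ContinuousWithinAt, tendsto_iff_norm_sub_tendsto_zero]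
  have h1 : Tendsto (fun x => 2 * ‖P x - P y‖) (𝓝[X.Y] y) (𝓝 0) := by
    have := (tendsto_iff_norm_sub_tendsto_zero.1
      (hP.continuousAt.continuousWithinAt (s := X.Y)).tendsto).const_mul 2
    simpa using this
  refine squeeze_zero' (Eventually.of_forall fun _ => norm_nonneg _) ?_ h1
  filter_upwards [hev] with x hx
  exact loc3_est2 _ _ _ _ hx.2 hx.1 h0.2 h0.1

/-- The orthogonal projection onto `T y` is continuous: locally `U (Uᴴ U)⁻¹ Uᴴ` with `U x = P x U₀`. -/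
theorem exists_orth_proj : ∃ π : Cn (N + 1) → Matrix (Fin (N + 1)) (Fin (N + 1)) ℂ, ContinuousOn π X.Y ∧
    ∀ y ∈ X.Y, (π y).IsHermitian ∧ π y * π y = π y ∧ X.J y * π y = 0 ∧ (∀ v ∈ X.T y, π y *ᵥ v.ofLp = v.ofLp) ∧
      ∀ t : ℂ, t ≠ 0 → π (t • y) = π y := by
  let Φ := (Matrix.toEuclideanCLM (n := Fin (N + 1)) (𝕜 := ℂ)).symm
  let g : Submodule ℂ (Cn (N + 1)) → Matrix (Fin (N + 1)) (Fin (N + 1)) ℂ := fun K => Φ K.starProjection
  have hΦ : Continuous Φ :=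
    LinearMap.continuous_of_finiteDimensional (Φ.toAlgEquiv.toLinearMap)
  have hg : ∀ (K : Submodule ℂ (Cn (N + 1))) (v : Cn (N + 1)), g K *ᵥ v.ofLp = (K.starProjection v).ofLp := by
    intro K v
    rw [← Matrix.ofLp_toEuclideanCLM]
    simp only [g, Φ, StarAlgEquiv.apply_symm_apply]
  refine ⟨fun y => g (X.T y), hΦ.comp_continuousOn X.loc3_cont, fun y hy => ⟨?_, ?_, ?_, ?_, ?_⟩⟩
  · change star (Φ _) = Φ _
    rw [← map_star, (isSelfAdjoint_starProjection _).star_eq]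
  · change Φ _ * Φ _ = Φ _
    rw [← map_mul, (Submodule.isIdempotentElem_starProjection _).eq]
  · refine Matrix.ext_iff_mulVec.2 fun v => ?_
    rw [← Matrix.mulVec_mulVec, Matrix.zero_mulVec, hg (X.T y) (WithLp.toLp 2 v)]
    exact (X.T y).starProjection_apply_mem _
  · intro v hv
    rw [hg, Submodule.starProjection_eq_self_iff.2 hv]
  · intro t ht
    exact congrArg g (X.T_smul y ht)

/-- Compactness of `{(y, v) : y ∈ Y, ‖y‖ = 1, ‖v‖ = 1, π y v = 0}`. -/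
theorem J_lower : ∃ c : ℝ, 0 < c ∧ ∀ y ∈ X.Y, ‖y‖ = 1 → ∀ v : Cn (N + 1), (∀ w ∈ X.T y, ⟪w, v⟫_ℂ = 0) →
    c * ‖v‖ ^ 2 ≤ ∑ j, ‖(X.J y *ᵥ v.ofLp) j‖ ^ 2 := by
  let f : Cn (N + 1) × Cn (N + 1) → ℝ := fun p => ∑ j, ‖(X.J p.1 *ᵥ p.2.ofLp) j‖ ^ 2
  have hf : Continuous f := by
    refine continuous_finset_sum _ fun j _ => (Continuous.norm ?_).pow 2
    have h : Continuous fun p : Cn (N + 1) × Cn (N + 1) => X.J p.1 *ᵥ p.2.ofLp :=
      (X.continuous_J.comp continuous_fst).matrix_mulVec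
        ((PiLp.continuous_ofLp 2 _).comp continuous_snd)
    exact (continuous_apply j).comp h
  have hS : IsCompact ((X.Y ∩ sphere 0 1) ×ˢ sphere (0 : Cn (N + 1)) 1) :=
    X.isCompact_Y1.prod (isCompact_sphere _ _)
  have hc : ContinuousOn (fun p : Cn (N + 1) × Cn (N + 1) => (X.T p.1).starProjection p.2)
      ((X.Y ∩ sphere 0 1) ×ˢ sphere (0 : Cn (N + 1)) 1) :=
    (X.loc3_cont.comp continuousOn_fst fun p hp => hp.1.1).clm_apply continuousOn_snd
  have hK := hS.of_isClosed_subset (hc.preimage_isClosed_of_isClosed hS.isClosed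
    (isClosed_singleton (x := 0))) inter_subset_left
  obtain ⟨c, hc0, hc1⟩ := hK.exists_forall_le' (a := 0) hf.continuousOn (by
    rintro ⟨y, v⟩ ⟨⟨hy, hv⟩, h0⟩
    refine lt_of_le_of_ne (Finset.sum_nonneg fun _ _ => by positivity) fun h => ?_
    have h1 := (Finset.sum_eq_zero_iff_of_nonneg fun _ _ => by positivity).1 h.symm
    have h2 : v ∈ X.T y := by
      rw [X.mem_T]
      funext j
      simpa using h1 j (Finset.mem_univ _)
    have h3 : (X.T y).starProjection v = 0 := h0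
    rw [Submodule.starProjection_eq_self_iff.2 h2] at h3
    simp [h3] at hv)
  refine ⟨c, hc0, fun y hy hy1 v hv => ?_⟩
  rcases eq_or_ne v 0 with rfl | hv0
  · simp
  have hn : 0 < ‖v‖ := norm_pos_iff.2 hv0
  have h0 : (X.T y).starProjection v = 0 :=
    (Submodule.starProjection_apply_eq_zero_iff _).2 ((Submodule.mem_orthogonal _ _).2 hv)
  have h1 := hc1 (y, ((‖v‖⁻¹ : ℝ) : ℂ) • v) ⟨⟨⟨hy, by simpa using hy1⟩, by
    simp [norm_smul, hn.ne']⟩, by
      change (X.T y).starProjection _ = 0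
      rw [map_smul, h0, smul_zero]⟩
  have h2 : f (y, ((‖v‖⁻¹ : ℝ) : ℂ) • v) = (∑ j, ‖(X.J y *ᵥ v.ofLp) j‖ ^ 2) / ‖v‖ ^ 2 := by
    simp only [f, WithLp.ofLp_smul, mulVec_smul, Pi.smul_apply, norm_smul, Complex.norm_real, norm_inv,
      norm_norm, mul_pow, Finset.sum_div]
    refine Finset.sum_congr rfl fun j _ => ?_
    field_simp
  rwa [h2, le_div_iff₀ (by positivity)] at h1

theorem loc4_X {m : ℕ} (y : Cn m) (l : Fin m) :
    MvPolynomial.X l - MvPolynomial.C (y l) ∈ RingHom.ker (MvPolynomial.eval y.ofLp) := by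
  simp [RingHom.mem_ker]

theorem loc4_taylor {m : ℕ} (y : Cn m) (F : MvPolynomial (Fin m) ℂ) :
    F - MvPolynomial.C (ev F y) - ∑ l, MvPolynomial.C (ev (MvPolynomial.pderiv l F) y) *
      (MvPolynomial.X l - MvPolynomial.C (y l)) ∈ RingHom.ker (MvPolynomial.eval y.ofLp) ^ 2 := by
  induction F using MvPolynomial.induction_on with
  | C a => simp [ev]
  | add p q hp hq =>
    convert add_mem hp hq using 1
    simp only [ev, map_add, add_mul, Finset.sum_add_distrib]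
    ring
  | mul_X p i hp =>
    have h1 := Ideal.mul_mem_mul (Ideal.sum_mem _ fun l (_ : l ∈ Finset.univ) =>
      Ideal.mul_mem_left _ (MvPolynomial.C (ev (MvPolynomial.pderiv l p) y)) (loc4_X y l)) (loc4_X y i)
    rw [← pow_two] at h1
    convert add_mem (Ideal.mul_mem_right (MvPolynomial.X i) _ hp) h1 using 1
    have h2 : ∀ l, MvPolynomial.C (ev (MvPolynomial.pderiv l (p * MvPolynomial.X i)) y) *
        (MvPolynomial.X l - MvPolynomial.C (y l)) = MvPolynomial.C (ev (MvPolynomial.pderiv l p) y) *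
        (MvPolynomial.X l - MvPolynomial.C (y l)) * MvPolynomial.C (y i) +
        if i = l then MvPolynomial.C (ev p y) * (MvPolynomial.X i - MvPolynomial.C (y i)) else
          (0 : MvPolynomial (Fin m) ℂ) := fun l => by
      rw [MvPolynomial.pderiv_mul, MvPolynomial.pderiv_X, Pi.single_apply]
      split_ifs with h
      · subst h; simp [ev]; ring
      · simp [ev]; ring
    simp only [h2, Finset.sum_add_distrib, ← Finset.sum_mul, Finset.sum_ite_eq, Finset.mem_univ, if_true]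
    simp only [ev, map_mul, MvPolynomial.eval_X]
    ring

theorem loc4_ord {m : ℕ} (y : Cn m) (k : ℕ) : ∀ G ∈ RingHom.ker (MvPolynomial.eval y.ofLp) ^ k,
    ev G =O[𝓝 y] fun x => ‖x - y‖ ^ k := by
  induction k with
  | zero => exact fun G _ => by simpa using (analyticAt_ev G y).continuousAt.isBigO_one ℝ
  | succ k ih =>
    intro G hG
    rw [pow_succ] at hG
    refine Submodule.mul_induction_on hG (fun A hA B hB => ?_) fun A B hA hB => ?_
    · have h1 := (analyticAt_ev B y).differentiableAt.isBigO_sub.norm_right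
      rw [show ev B y = 0 from hB] at h1
      exact ((ih A hA).mul h1).congr (fun x => by simp [ev]) fun x => (pow_succ _ _).symm
    · exact (hA.add hB).congr_left fun x => by simp [ev]

theorem loc4_red {y : Cn (N + 1)} (hy : y ∈ X.Y) (D : Cn (N + 1) →L[ℂ] Cn (N + 1)) (hD : ∀ v ∈ X.T y, D v = v) :
    ∃ β : MvPolynomial (Fin (N + 1)) ℂ →+* MvPolynomial (Fin (N + 1)) ℂ, (∀ Q x, ev (β Q) x = ev Q (D (x - y))) ∧
      ∀ k, ∀ G ∈ RingHom.ker (MvPolynomial.eval y.ofLp) ^ k, ∃ Q : MvPolynomial (Fin (N + 1)) ℂ, Q.IsHomogeneous k ∧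
        G - β Q ∈ X.I ⊔ RingHom.ker (MvPolynomial.eval y.ofLp) ^ (k + 1) := by
  have hL : ∀ i, ∃ L, ∀ x, ev L x = D (x - y) i := fun i =>
    ⟨∑ l, MvPolynomial.C (D (EuclideanSpace.single l 1) i) * (MvPolynomial.X l - MvPolynomial.C (y l)), fun x => by
      conv_rhs => rw [← (EuclideanSpace.basisFun _ ℂ).sum_repr (x - y)]
      simp [ev, mul_comm]⟩
  choose L hL using hL
  let β := MvPolynomial.eval₂Hom MvPolynomial.C L
  have hβ : ∀ Q x, ev (β Q) x = ev Q (D (x - y)) := by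
    intro Q x
    induction Q using MvPolynomial.induction_on with
    | C a => simp [ev, β]
    | add p q hp hq => simpa only [ev, map_add] using congrArg₂ (· + ·) hp hq
    | mul_X p i hp =>
      simpa only [ev, map_mul, β, MvPolynomial.eval₂Hom_X', MvPolynomial.eval_X] using congrArg₂ (· * ·) hp (hL i x)
  refine ⟨β, hβ, ?_⟩
  have hI : X.I ≤ RingHom.ker (MvPolynomial.eval y.ofLp) := fun G hG => X.zero y hy.1 hy.2 G hG
  have h1 : ∀ A ∈ RingHom.ker (MvPolynomial.eval y.ofLp), ∃ Q : MvPolynomial (Fin (N + 1)) ℂ, Q.IsHomogeneous 1 ∧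
      A - β Q ∈ X.I ⊔ RingHom.ker (MvPolynomial.eval y.ofLp) ^ 2 := fun A hA => by
    obtain ⟨c, hc⟩ := (Submodule.mem_span_range_iff_exists_fun ℂ).1 (mem_span_of_iInf_ker_le_ker
      (L := fun j => (fderiv ℂ (ev (X.F j)) y : Cn (N + 1) →ₗ[ℂ] ℂ))
      (K := (fderiv ℂ (ev A) y - (fderiv ℂ (ev A) y).comp D : Cn (N + 1) →L[ℂ] ℂ)) fun v hv => by
        have : v ∈ X.T y := funext fun j => by
          rw [X.J_mulVec, ← fderiv_ev]; exact (Submodule.mem_iInf _).1 hv j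
        simp [hD v this])
    refine ⟨∑ i, MvPolynomial.C (ev (MvPolynomial.pderiv i A) y) * MvPolynomial.X i,
      MvPolynomial.IsHomogeneous.sum _ _ _ fun i _ => (MvPolynomial.isHomogeneous_X _ _).C_mul _, ?_⟩
    convert add_mem (Ideal.mem_sup_left (Ideal.sum_mem _ fun j (_ : j ∈ Finset.univ) =>
      Ideal.mul_mem_left _ (MvPolynomial.C (c j)) (X.mem j))) (Ideal.mem_sup_right (sub_mem (loc4_taylor y A)
        (Ideal.sum_mem _ fun j (_ : j ∈ Finset.univ) =>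
          Ideal.mul_mem_left _ (MvPolynomial.C (c j)) (loc4_taylor y (X.F j))))) using 1
    refine MvPolynomial.funext fun x => ?_
    have h2 := LinearMap.congr_fun hc (WithLp.toLp 2 x - y)
    have h3 := hβ (∑ i, MvPolynomial.C (ev (MvPolynomial.pderiv i A) y) * MvPolynomial.X i) (WithLp.toLp 2 x)
    have h4 : ∀ j, ev (X.F j) y = 0 := hy.2
    have h5 : ev A y = 0 := hA
    simp only [LinearMap.sum_apply, LinearMap.smul_apply, ContinuousLinearMap.coe_coe, _root_.sub_apply,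
      ContinuousLinearMap.comp_apply, fderiv_ev, dev, smul_eq_mul, PiLp.sub_apply] at h2
    rw [map_sub, show MvPolynomial.eval x (β _) = _ from h3]
    simp only [ev] at h2 h4 h5 ⊢
    generalize D (WithLp.toLp 2 x - y) = v at h2 ⊢
    simp only [map_sub, map_add, h4, h5, map_sum, map_mul, MvPolynomial.eval_C, MvPolynomial.eval_X, map_zero,
      sub_zero, mul_sub (c _), Finset.sum_sub_distrib, h2]
    ring
  have h0 : ∀ G, G - β (MvPolynomial.C (ev G y)) ∈ RingHom.ker (MvPolynomial.eval y.ofLp) := fun G => by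
    simp [β, ev, RingHom.mem_ker]
  generalize RingHom.ker (MvPolynomial.eval y.ofLp) = 𝔪 at *
  intro k
  induction k with
  | zero =>
    exact fun G _ => ⟨_, MvPolynomial.isHomogeneous_C _ _, Ideal.mem_sup_right (by simpa using h0 G)⟩
  | succ k ih =>
    intro G hG
    rw [pow_succ] at hG
    refine Submodule.mul_induction_on hG (fun B hB A hA => ?_) ?_
    · obtain ⟨QA, a1, a2⟩ := h1 A hA
      obtain ⟨QB, b1, b2⟩ := ih B hB
      refine ⟨QB * QA, b1.mul a1, ?_⟩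
      have a3 : β QA ∈ 𝔪 := by
        have := sub_mem hA ((sup_le hI (Ideal.pow_le_self two_ne_zero)) a2)
        rwa [sub_sub_cancel] at this
      rw [show B * A - β (QB * QA) = B * (A - β QA) + (B - β QB) * β QA by rw [map_mul]; ring]
      have a4 := Ideal.mul_mem_mul hB a2
      have a5 := Ideal.mul_mem_mul b2 a3
      rw [Ideal.mul_sup, ← pow_add] at a4
      rw [Ideal.sup_mul, ← pow_succ] at a5
      exact add_mem (SetLike.le_def.1 (sup_le_sup_right (Ideal.mul_le_inf.trans inf_le_right) _) a4)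
        (SetLike.le_def.1 (sup_le_sup_right (Ideal.mul_le_inf.trans inf_le_left) _) a5)
    · rintro A B ⟨QA, a1, a2⟩ ⟨QB, b1, b2⟩
      exact ⟨QA + QB, a1.add b1, by convert add_mem a2 b2 using 1; rw [map_add]; ring⟩

/-- Vanishing order.  `𝔪 = (w) + 𝔪² + I` for the coordinates `w_a = x_{β a} - y_{β a}` (`MM` invertible), so `G ≡ P(w)` modulo
`𝔪 ^ k + I` with `deg P < k`; `w` parametrises `Y` near `y` bi-Lipschitz, so `P = O(‖w‖ ^ k)` near `0`, and `P = 0`. -/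
theorem mem_pow_of_order {y : Cn (N + 1)} (hy : y ∈ X.Y) {G : MvPolynomial (Fin (N + 1)) ℂ} {k : ℕ} {C : ℝ}
    (h : ∀ᶠ x in 𝓝[X.Y] y, ‖ev G x‖ ≤ C * ‖x - y‖ ^ k) :
    G ∈ X.I ⊔ RingHom.ker (MvPolynomial.eval y.ofLp) ^ k := by
  obtain ⟨ψ, h1, h2, h3, -, h4, h5⟩ := X.exists_retr hy
  obtain ⟨β, hβ, hr⟩ := X.loc4_red hy _ h5
  have h6 : ∀ k, ∀ G ∈ X.I ⊔ RingHom.ker (MvPolynomial.eval y.ofLp) ^ k,
      ev G =O[𝓝[X.Y] y] fun x => ‖x - y‖ ^ k := fun k G hG => by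
    obtain ⟨A, hA, B, hB, rfl⟩ := Submodule.mem_sup.1 hG
    refine ((loc4_ord y k B hB).mono nhdsWithin_le_nhds).congr' ?_ EventuallyEq.rfl
    filter_upwards [self_mem_nhdsWithin] with x hx
    rw [ev, ev, map_add, show MvPolynomial.eval x.ofLp A = 0 from X.zero x hx.1 hx.2 A hA, zero_add]
  replace h : ev G =O[𝓝[X.Y] y] fun x => ‖x - y‖ ^ k := .of_bound C (by simpa using h)
  clear C
  induction k with
  | zero => simp
  | succ k ih =>
    have a0 : Tendsto (fun x => ‖x - y‖) (𝓝[X.Y] y) (𝓝 0) :=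
      (tendsto_norm_sub_self y).mono_left nhdsWithin_le_nhds
    obtain ⟨A, hA, B, hB, rfl⟩ := Submodule.mem_sup.1 (ih (h.trans (by
      simpa only [pow_succ, mul_one] using (Asymptotics.isBigO_refl (fun x => ‖x - y‖ ^ k) _).mul (a0.isBigO_one ℝ))))
    obtain ⟨Q, hQ, a1⟩ := hr k B hB
    replace a1 := add_mem (Ideal.mem_sup_left hA) a1
    rw [← add_sub_assoc] at a1
    suffices β Q = 0 by rwa [this, sub_zero] at a1
    have a2 : ev (β Q) =O[𝓝[X.Y] y] fun x => ‖x - y‖ ^ (k + 1) :=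
      (h.sub (h6 _ _ a1)).congr_left fun x => by simp [ev]
    refine MvPolynomial.funext fun x => (hβ Q (WithLp.toLp 2 x)).trans ?_
    generalize WithLp.toLp 2 x - y = v
    have b1 : HasDerivAt (fun t : ℂ => y + t • v) v 0 := by
      simpa using ((hasDerivAt_id (0 : ℂ)).smul_const v).const_add y
    have b2 : HasDerivAt (fun t : ℂ => ψ (y + t • v)) (fderiv ℂ ψ y v) 0 :=
      HasFDerivAt.comp_hasDerivAt_of_eq _ h1.differentiableAt.hasFDerivAt b1 (by simp)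
    have b3 : Tendsto (fun t : ℂ => ψ (y + t • v)) (𝓝 0) (𝓝[X.Y] y) := tendsto_nhdsWithin_iff.2
      ⟨by simpa [h2] using b2.continuousAt.tendsto,
        (show Tendsto (fun t : ℂ => y + t • v) (𝓝 0) (𝓝 y) by simpa using b1.continuousAt.tendsto).eventually h3⟩
    have b4 := b2.tendsto_slope_zero
    have b5 := b2.isBigO_sub.norm_norm.pow (k + 1)
    simp only [zero_add, zero_smul, add_zero, h2, sub_zero] at b4 b5
    have b6 := ((analyticAt_ev Q _).continuousAt.tendsto.comp (((fderiv ℂ ψ y).continuous.tendsto _).comp b4))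
    rw [h5 _ (h4 v)] at b6
    have b7 := (Asymptotics.isBigO_refl (fun t : ℂ => t⁻¹ ^ k) _).norm_right.mul
      (((a2.comp_tendsto b3).trans b5).mono (nhdsWithin_le_nhds (s := {0}ᶜ)))
    refine tendsto_nhds_unique b6 ((b7.congr' (g₂ := fun t => ‖t‖) (.of_forall fun t => ?_) ?_).trans_tendsto
      (tendsto_norm_zero.mono_left nhdsWithin_le_nhds))
    · simp only [Function.comp_apply, hβ, map_smul, ev_smul hQ]
    · filter_upwards [self_mem_nhdsWithin] with t ht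
      have : ‖t‖ ≠ 0 := norm_ne_zero_iff.2 ht
      rw [norm_pow, norm_inv, pow_succ, ← mul_assoc, ← mul_pow, inv_mul_cancel₀ this, one_pow, one_mul]

/-- Irreducibility: `mem_pow_of_order` for all `k` and Krull's intersection theorem in the Noetherian domain
`ℂ[x] / I` (`Ideal.iInf_pow_eq_bot_of_isDomain`). -/
theorem irred {G : MvPolynomial (Fin (N + 1)) ℂ} (hG : G ∉ X.I) {y : Cn (N + 1)} (hy : y ∈ X.Y) :
    ∃ᶠ x in 𝓝[X.Y] y, ev G x ≠ 0 := by
  intro h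
  have := X.prime
  have hI : X.I ≤ RingHom.ker (MvPolynomial.eval y.ofLp) := fun G hG => X.zero y hy.1 hy.2 G hG
  have h1 : (RingHom.ker (MvPolynomial.eval y.ofLp)).map (Ideal.Quotient.mk X.I) ≠ ⊤ := fun h1 => by
    have h2 := congrArg (Ideal.comap (Ideal.Quotient.mk X.I)) h1
    rw [Ideal.comap_map_mk hI, Ideal.comap_top] at h2
    exact RingHom.ker_ne_top _ h2
  refine hG (Ideal.Quotient.eq_zero_iff_mem.1 (Ideal.mem_bot.1 ?_))
  rw [← Ideal.iInf_pow_eq_bot_of_isDomain _ h1, Ideal.mem_iInf]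
  intro k
  have h2 := Ideal.mem_map_of_mem (Ideal.Quotient.mk X.I) (X.mem_pow_of_order hy (G := G) (k := k) (C := 0)
    (h.mono fun x hx => by simp [not_not.1 hx]))
  rwa [Ideal.map_sup, Ideal.map_quotient_self, bot_sup_eq, Ideal.map_pow] at h2

theorem loc3_an (Λ : Matrix (Fin (n + 1)) (Fin (N + 1)) ℂ) (i : Fin (n + 1)) (y : Cn (N + 1)) :
    AnalyticAt ℂ (fun x : Cn (N + 1) => (Λ *ᵥ x.ofLp) i) y := by
  simp only [mulVec, dotProduct]
  exact Finset.analyticAt_fun_sum _ fun k _ =>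
    analyticAt_const.mul ((EuclideanSpace.proj k : Cn (N + 1) →L[ℂ] ℂ).analyticAt y)

theorem analyticAt_zeta (Λ : Matrix (Fin (n + 1)) (Fin (N + 1)) ℂ) {y : Cn (N + 1)} (h : ell Λ y ≠ 0) :
    AnalyticAt ℂ (zeta Λ) y := by
  have h1 : AnalyticAt ℂ (fun x : Cn (N + 1) => fun j : Fin n => (Λ *ᵥ x.ofLp) j.succ / ell Λ x) y :=
    analyticAt_pi_iff.2 fun j => (loc3_an Λ j.succ y).fun_div (loc3_an Λ 0 y) h
  exact ((PiLp.continuousLinearEquiv 2 ℂ fun _ : Fin n => ℂ).symm.analyticAt _).comp h1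

theorem zeta_smul (Λ : Matrix (Fin (n + 1)) (Fin (N + 1)) ℂ) (y : Cn (N + 1)) {t : ℂ} (ht : t ≠ 0) :
    zeta Λ (t • y) = zeta Λ y := by
  ext j
  simp only [zeta, ell, WithLp.ofLp_smul, mulVec_smul, Pi.smul_apply, smul_eq_mul]
  exact mul_div_mul_left _ _ ht

theorem loc5_inv {V : Type} [NormedAddCommGroup V] [NormedSpace ℂ V] [CompleteSpace V] {g : V → V} {a : V}
    (hg : AnalyticAt ℂ g a) (hd : ∀ v, fderiv ℂ g a v = v) :
    ∃ r : V → V, AnalyticAt ℂ r (g a) ∧ r (g a) = a ∧ (∀ᶠ v in 𝓝 (g a), g (r v) = v) ∧ ∀ᶠ x in 𝓝 a, r (g x) = x := by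
  have h1 : HasFDerivAt g ((ContinuousLinearEquiv.refl ℂ V : V ≃L[ℂ] V) : V →L[ℂ] V) a := by
    convert hg.differentiableAt.hasFDerivAt using 1
    ext v; simp [hd]
  have h2 : ContDiffAt ℂ ω g a := hg.contDiffAt
  exact ⟨h2.localInverse h1 (by simp), (h2.to_localInverse h1 (by simp)).analyticAt,
    h2.localInverse_apply_image h1 (by simp), (h2.hasStrictFDerivAt' h1 (by simp)).eventually_right_inverse,
    (h2.hasStrictFDerivAt' h1 (by simp)).eventually_left_inverse⟩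

/-- a matrix as a continuous linear map -/
def loc5_mv {a b : ℕ} (M : Matrix (Fin a) (Fin b) ℂ) : Cn b →L[ℂ] Cn a :=
  LinearMap.toContinuousLinearMap (Matrix.toEuclideanLin M)

theorem loc5_mv_apply {a b : ℕ} (M : Matrix (Fin a) (Fin b) ℂ) (x : Cn b) : (loc5_mv M x).ofLp = M *ᵥ x.ofLp := rfl

/-- `w ↦ (1, w)` -/
def loc5_kap (w : Cn n) : Cn (n + 1) := WithLp.toLp 2 (Fin.cons 1 w.ofLp)

theorem loc5_kap_an (w : Cn n) : AnalyticAt ℂ loc5_kap w := by
  refine (PiLp.continuousLinearEquiv 2 ℂ fun _ : Fin (n + 1) => ℂ).symm.analyticAt _ |>.comp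
    (f := fun w : Cn n => (Fin.cons 1 w.ofLp : Fin (n + 1) → ℂ)) (analyticAt_pi_iff.2 fun a => ?_)
  refine Fin.cases ?_ (fun j => ?_) a
  · exact analyticAt_const
  · exact (EuclideanSpace.proj j : Cn n →L[ℂ] ℂ).analyticAt w

theorem loc5_mv_eq {Λ : Matrix (Fin (n + 1)) (Fin (N + 1)) ℂ} {y : Cn (N + 1)} (h : ell Λ y ≠ 0) :
    loc5_mv Λ y = ell Λ y • loc5_kap (zeta Λ y) := by
  ext a
  refine Fin.cases ?_ (fun j => ?_) a
  · simp [loc5_kap, loc5_mv_apply, ell]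
  · simp [loc5_kap, loc5_mv_apply, zeta, mul_div_cancel₀ _ h]

theorem loc5_sec {y : Cn (N + 1)} (hy : y ∈ X.Y) {Λ} {f : X.Fi} (hf : X.dl f Λ y ≠ 0) :
    ∃ A : Cn (n + 1) →L[ℂ] Cn (N + 1), (∀ u, A u ∈ X.T y) ∧ (∀ u, loc5_mv Λ (A u) = u) ∧
      ∀ v ∈ X.T y, A (loc5_mv Λ v) = v := by
  obtain ⟨U, hU⟩ := X.exists_frame hy
  obtain ⟨μ, -, hμ⟩ := X.exists_mu hy hU
  have hd : IsUnit (Λ * U).det := by
    rw [hμ] at hf; exact (right_ne_zero_of_mul hf).isUnit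
  refine ⟨loc5_mv (U * (Λ * U)⁻¹), fun u => ?_, fun u => ?_, fun v hv => ?_⟩
  · rw [mem_T, loc5_mv_apply, mulVec_mulVec, ← Matrix.mul_assoc, hU.1, Matrix.zero_mul, zero_mulVec]
  · apply WithLp.ofLp_injective
    rw [loc5_mv_apply, loc5_mv_apply, mulVec_mulVec, ← Matrix.mul_assoc, mul_nonsing_inv _ hd, one_mulVec]
  · obtain ⟨a, ha⟩ := (hU.range hy).1 hv
    apply WithLp.ofLp_injective
    rw [loc5_mv_apply, loc5_mv_apply, ha, mulVec_mulVec, mulVec_mulVec, Matrix.mul_assoc, Matrix.mul_assoc,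
      nonsing_inv_mul _ hd, Matrix.mul_one]

/-- Inverse function theorem for `x ↦ (Λ x, F_f x)`; its zero section lies in `Y` (as in `exists_retr`, or `zero_of_Q`). -/
theorem exists_chart {y : Cn (N + 1)} (hy : y ∈ X.Y) {Λ} (h0 : ell Λ y ≠ 0) {f : X.Fi} (hf : X.dl f Λ y ≠ 0) :
    ∃ C : X.Chart, C.Λ = Λ ∧ zeta Λ y ∈ C.B ∧ C.σ (zeta Λ y) = (ell Λ y)⁻¹ • y := by
  set y₁ := (ell Λ y)⁻¹ • y with hy₁
  have h1 : y₁ ∈ X.Y := X.smul_mem_Y hy (inv_ne_zero h0)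
  have hf₁ : X.dl f Λ y₁ ≠ 0 := by
    rw [hy₁, X.dl_smul]; exact mul_ne_zero (pow_ne_zero _ (inv_ne_zero h0)) hf
  obtain ⟨A, hA, hLA, -⟩ := X.loc5_sec h1 hf₁
  obtain ⟨ψ, hψ, hψy, hψY, -, -, hψT⟩ := X.exists_retr h1
  have hk : loc5_kap (zeta Λ y) = loc5_mv Λ y₁ := by
    rw [hy₁, map_smul, loc5_mv_eq h0, inv_smul_smul₀ h0]
  have ha : AnalyticAt ℂ (fun u => y₁ + A u) 0 := analyticAt_const.add (A.analyticAt 0)
  have hψ' : AnalyticAt ℂ ψ (y₁ + A 0) := by simpa using hψ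
  have hs : AnalyticAt ℂ (fun u => ψ (y₁ + A u)) 0 := hψ'.comp (f := fun u => y₁ + A u) ha
  obtain ⟨r, hr, hr0, hgr, -⟩ := loc5_inv (g := fun u => loc5_mv Λ (ψ (y₁ + A u))) (a := 0)
    (((loc5_mv Λ).analyticAt _).comp hs) fun v => by
      have := (loc5_mv Λ).hasFDerivAt.comp 0 (hψ'.differentiableAt.hasFDerivAt.comp 0
        (A.hasFDerivAt.const_add y₁))
      rw [show fderiv ℂ (fun u => loc5_mv Λ (ψ (y₁ + A u))) 0 = _ from this.fderiv]
      simp [hψT _ (hA v), hLA]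
  simp only [map_zero, add_zero, hψy, ← hk] at hr hr0 hgr
  have hrk : AnalyticAt ℂ (fun w => r (loc5_kap w)) (zeta Λ y) := hr.comp (loc5_kap_an _)
  have hσ : AnalyticAt ℂ (fun w => ψ (y₁ + A (r (loc5_kap w)))) (zeta Λ y) :=
    AnalyticAt.comp_of_eq (g := fun u => ψ (y₁ + A u)) hs hrk hr0
  have hY : ∀ᶠ w in 𝓝 (zeta Λ y), ψ (y₁ + A (r (loc5_kap w))) ∈ X.Y := by
    have : ContinuousAt (fun w => y₁ + A (r (loc5_kap w))) (zeta Λ y) :=
      continuousAt_const.add (A.continuous.continuousAt.comp hrk.continuousAt)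
    refine this.eventually (p := fun x => ψ x ∈ X.Y) ?_
    simpa [hr0] using hψY
  obtain ⟨B, hB, hBo, hBw⟩ := _root_.eventually_nhds_iff.1 (hσ.eventually_analyticAt.and
    (hY.and ((loc5_kap_an _).continuousAt.eventually hgr)))
  have hone : ∀ w ∈ B, ell Λ (ψ (y₁ + A (r (loc5_kap w)))) = 1 := fun w hw =>
    congrArg (fun z : Cn (n + 1) => z 0) (hB w hw).2.2
  refine ⟨⟨Λ, B, fun w => ψ (y₁ + A (r (loc5_kap w))), hBo, fun w hw => (hB w hw).1,
    fun w hw => (hB w hw).2.1, hone, fun w hw => ?_⟩, rfl, hBw, by simp [hr0, hψy]⟩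
  ext j
  simp only [zeta, hone w hw, div_one]
  exact congrArg (fun z : Cn (n + 1) => z j.succ) (hB w hw).2.2

variable {X}

theorem Chart.loc5_sig (C : X.Chart) {w : Cn n} (hw : w ∈ C.B) : loc5_mv C.Λ (C.σ w) = loc5_kap w := by
  rw [loc5_mv_eq (by rw [C.one w hw]; exact one_ne_zero), C.one w hw, C.inv w hw, one_smul]

theorem Chart.loc5_der (C : X.Chart) {w : Cn n} (hw : w ∈ C.B) (e : Cn n) :
    C.Λ *ᵥ (fderiv ℂ C.σ w e).ofLp = Fin.cons 0 e.ofLp := by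
  ext a
  have h1 : HasFDerivAt (fun w => (loc5_kap w) a) _ w :=
    (((EuclideanSpace.proj a : Cn (n + 1) →L[ℂ] ℂ).comp (loc5_mv C.Λ)).hasFDerivAt.comp w
      (C.an w hw).differentiableAt.hasFDerivAt).congr_of_eventuallyEq (by
        filter_upwards [C.isOpen.mem_nhds hw] with z hz
        simp [C.loc5_sig hz])
  revert h1
  refine Fin.cases (fun h1 => ?_) (fun j h1 => ?_) a
  · exact congrArg (fun L : Cn n →L[ℂ] ℂ => L e) (h1.unique (hasFDerivAt_const (1 : ℂ) w))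
  · exact congrArg (fun L : Cn n →L[ℂ] ℂ => L e)
      (h1.unique (EuclideanSpace.proj j : Cn n →L[ℂ] ℂ).hasFDerivAt)

theorem Chart.mul_U (C : X.Chart) {w : Cn n} (hw : w ∈ C.B) : C.Λ * C.U w =
    Matrix.of (Fin.cons (Fin.cons 1 fun _ => 0) fun j => Fin.cons (w j) fun l => if j = l then 1 else 0) := by
  ext a b
  have h1 : C.Λ *ᵥ (C.σ w).ofLp = Fin.cons 1 w.ofLp := congrArg WithLp.ofLp (C.loc5_sig hw)
  refine Fin.cases ?_ (fun l => ?_) b
  · change (C.Λ *ᵥ (C.σ w).ofLp) a = _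
    rw [h1]
    refine Fin.cases ?_ (fun j => ?_) a <;> simp
  · change (C.Λ *ᵥ (fderiv ℂ C.σ w (EuclideanSpace.single l 1)).ofLp) a = _
    rw [C.loc5_der hw]
    refine Fin.cases ?_ (fun j => ?_) a <;> simp [Pi.single_apply]

theorem Chart.det_mul_U (C : X.Chart) {w : Cn n} (hw : w ∈ C.B) : (C.Λ * C.U w).det = 1 := by
  rw [C.mul_U hw, det_succ_row_zero, Fin.sum_univ_succ]
  have : (Matrix.of (Fin.cons (Fin.cons 1 fun _ => 0) fun j => Fin.cons (w j) fun l => if j = l then 1 else 0) :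
      Matrix (Fin (n + 1)) (Fin (n + 1)) ℂ).submatrix Fin.succ Fin.succ = 1 := by
    ext j l; simp [one_apply]
  simp [this]

theorem Chart.isFrame (C : X.Chart) {w : Cn n} (hw : w ∈ C.B) : X.IsFrame (C.σ w) (C.U w) := by
  refine ⟨?_, fun a b hab => mulVec_injective_of_isUnit (A := C.Λ * C.U w)
    ((isUnit_iff_isUnit_det _).2 (by rw [C.det_mul_U hw]; exact isUnit_one)) ?_⟩
  · ext j b
    refine Fin.cases ?_ (fun l => ?_) b
    · exact congrFun (X.mem_T.1 (X.self_mem_T (C.mem hw))) j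
    · exact congrFun (X.mem_T.1 (X.fderiv_mem_T (C.an w hw).differentiableAt
        (Filter.mem_of_superset (C.isOpen.mem_nhds hw) C.mem) (EuclideanSpace.single l 1))) j
  · rw [← mulVec_mulVec, ← mulVec_mulVec, hab]

theorem Chart.exists_dl (C : X.Chart) {w : Cn n} (hw : w ∈ C.B) : ∃ f, X.dl f C.Λ (C.σ w) ≠ 0 := by
  obtain ⟨μ, hμ, h⟩ := X.exists_mu (C.mem hw) (C.isFrame hw)
  obtain ⟨f, hf⟩ := Function.ne_iff.1 hμ
  exact ⟨f, by rw [h, C.det_mul_U hw, mul_one]; exact hf⟩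

/-- Every tangent vector is `t σ + dσ e`. -/
theorem Chart.exists_tan (C : X.Chart) {w : Cn n} (hw : w ∈ C.B) {v : Cn (N + 1)} (hv : v ∈ X.T (C.σ w)) :
    ∃ (t : ℂ) (e : Cn n), v = fderiv ℂ C.σ w e + t • C.σ w := by
  obtain ⟨a, ha⟩ := ((C.isFrame hw).range (C.mem hw)).1 hv
  refine ⟨a 0, ∑ j, a j.succ • EuclideanSpace.single j 1, ?_⟩
  ext i
  rw [ha, map_sum]
  simp [Chart.U, colM, mulVec, dotProduct, Fin.sum_univ_succ, mul_comm, add_comm]

/-- The cone over a chart is open in `Y` (local injectivity of `x ↦ (Λ x, F_f x)`). -/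
theorem Chart.eventually (C : X.Chart) {w : Cn n} (hw : w ∈ C.B) {t : ℂ} (ht : t ≠ 0) :
    ∀ᶠ x in 𝓝[X.Y] (t • C.σ w), ell C.Λ x ≠ 0 ∧ zeta C.Λ x ∈ C.B ∧ x = ell C.Λ x • C.σ (zeta C.Λ x) := by
  set y := t • C.σ w with hy
  have hyY : y ∈ X.Y := X.smul_mem_Y (C.mem hw) ht
  obtain ⟨f, hf⟩ := C.exists_dl hw
  have hf' : X.dl f C.Λ y ≠ 0 := by
    rw [hy, X.dl_smul]; exact mul_ne_zero (pow_ne_zero _ ht) hf
  obtain ⟨A, -, -, hAL⟩ := X.loc5_sec hyY hf'
  obtain ⟨ψ, hψ, -, -, hψx, hψT, -⟩ := X.exists_retr hyY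
  obtain ⟨r, -, -, -, hr⟩ := loc5_inv (g := fun x => x - ψ x + A (loc5_mv C.Λ (ψ x))) (a := y)
    ((analyticAt_id.sub hψ).add (((A.comp (loc5_mv C.Λ)).analyticAt _).comp hψ)) fun v => by
      have h := hψ.differentiableAt.hasFDerivAt
      have := ((hasFDerivAt_id y).sub h).add ((A.comp (loc5_mv C.Λ)).hasFDerivAt.comp y h)
      rw [show fderiv ℂ (fun x => x - ψ x + A (loc5_mv C.Λ (ψ x))) y = _ from this.fderiv]
      simp [hAL _ (hψT v)]
  have hl : ell C.Λ y = t := by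
    have := C.one w hw
    simp only [ell] at this
    simp [hy, ell, mulVec_smul, this]
  have hz : zeta C.Λ y = w := by rw [hy, zeta_smul _ _ ht, C.inv w hw]
  have cl : ContinuousAt (ell C.Λ) y :=
    ((EuclideanSpace.proj 0 : Cn (n + 1) →L[ℂ] ℂ).comp (loc5_mv C.Λ)).continuous.continuousAt
  have cz : ContinuousAt (zeta C.Λ) y := (analyticAt_zeta _ (hl ▸ ht)).continuousAt
  have cs : ContinuousAt (fun x => ell C.Λ x • C.σ (zeta C.Λ x)) y :=
    cl.smul ((C.an w hw).continuousAt.comp_of_eq cz hz)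
  have h2 := cs.eventually (p := fun x => r (x - ψ x + A (loc5_mv C.Λ (ψ x))) = x ∧ (x ∈ X.Y → ψ x = x))
    (by simpa only [hl, hz] using hr.and hψx)
  filter_upwards [self_mem_nhdsWithin, nhdsWithin_le_nhds (hr.and hψx), nhdsWithin_le_nhds h2,
    nhdsWithin_le_nhds (cl.eventually_ne (hl ▸ ht)),
    nhdsWithin_le_nhds (cz.eventually (p := fun z => z ∈ C.B) (hz ▸ C.isOpen.mem_nhds hw))]
    with x hx h1 h2 h3 h4
  refine ⟨h3, h4, ?_⟩
  have h5 := h2.2 (X.smul_mem_Y (C.mem h4) h3)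
  rw [← h2.1, h5, sub_self, map_smul, C.loc5_sig h4, ← loc5_mv_eq h3]
  have := h1.1
  rw [h1.2 hx, sub_self] at this
  exact this.symm

theorem Chart.fderiv_zeta (C : X.Chart) {w : Cn n} (hw : w ∈ C.B) (e : Cn n) (t : ℂ) :
    fderiv ℂ (zeta C.Λ) (C.σ w) (fderiv ℂ C.σ w e + t • C.σ w) = e := by
  have hz := (analyticAt_zeta C.Λ (y := C.σ w) (by rw [C.one w hw]; exact one_ne_zero)).differentiableAt.hasFDerivAt
  have h1 : HasFDerivAt (fun z : Cn n => z) _ w :=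
    (hz.comp w (C.an w hw).differentiableAt.hasFDerivAt).congr_of_eventuallyEq (by
      filter_upwards [C.isOpen.mem_nhds hw] with z hz
      exact (C.inv z hz).symm)
  have h2 : fderiv ℂ (zeta C.Λ) (C.σ w) (fderiv ℂ C.σ w e) = e :=
    congrArg (fun L : Cn n →L[ℂ] Cn n => L e) (h1.unique (hasFDerivAt_id w))
  have h3 : HasDerivAt (fun _ : ℂ => zeta C.Λ (C.σ w)) _ 1 :=
    (HasFDerivAt.comp_hasDerivAt_of_eq (1 : ℂ) hz ((hasDerivAt_id (1 : ℂ)).smul_const (C.σ w))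
      (by simp)).congr_of_eventuallyEq (by
      filter_upwards [eventually_ne_nhds (one_ne_zero (α := ℂ))] with s hs
      exact (zeta_smul _ _ hs).symm)
  have h4 := h3.unique (hasDerivAt_const _ _)
  rw [one_smul] at h4
  rw [map_add, map_smul, h2, h4, smul_zero, add_zero]

theorem loc6_det_schur {n : ℕ} (A : Matrix (Fin (n + 1)) (Fin (n + 1)) ℂ) (h : A 0 0 ≠ 0) :
    A.det = A 0 0 ^ (n + 1) *
      (Matrix.of fun j l : Fin n => A j.succ l.succ / A 0 0 - A j.succ 0 * A 0 l.succ / A 0 0 ^ 2).det := by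
  have h1 : A.det = (Matrix.of fun i j =>
      A i j - (Fin.cons 0 (fun j => A j.succ 0 / A 0 0) : Fin (n + 1) → ℂ) i * A 0 j).det := by
    refine Matrix.det_eq_of_forall_row_eq_smul_add_const
      (Fin.cons 0 (fun j => A j.succ 0 / A 0 0) : Fin (n + 1) → ℂ) 0 rfl fun i j => ?_
    simp
  rw [h1, Matrix.det_succ_column_zero, Fin.sum_univ_succ, Finset.sum_eq_zero fun i _ => by simp [h], add_zero,
    pow_succ', mul_assoc (A 0 0)]
  have h2 : A 0 0 ^ n * (Matrix.of fun j l : Fin n =>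
      A j.succ l.succ / A 0 0 - A j.succ 0 * A 0 l.succ / A 0 0 ^ 2).det =
      (A 0 0 • Matrix.of fun j l : Fin n => A j.succ l.succ / A 0 0 - A j.succ 0 * A 0 l.succ / A 0 0 ^ 2).det := by
    rw [Matrix.det_smul, Fintype.card_fin]
  rw [h2]
  simp only [Fin.val_zero, pow_zero, Matrix.of_apply, Fin.cons_zero, zero_mul, sub_zero, one_mul]
  congr 2
  ext j l
  simp only [Matrix.submatrix_apply, Fin.succAbove_zero, Matrix.of_apply, Fin.cons_succ, Matrix.smul_apply,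
    smul_eq_mul]
  field_simp

/-- row `a` of `Λ` as a continuous linear form -/
def loc6_row (Λ : Matrix (Fin (n + 1)) (Fin (N + 1)) ℂ) (a : Fin (n + 1)) : Cn (N + 1) →L[ℂ] ℂ :=
  LinearMap.toContinuousLinearMap
    { toFun := fun y => (Λ *ᵥ y.ofLp) a
      map_add' := fun x y => by simp [Matrix.mulVec_add]
      map_smul' := fun c x => by simp [Matrix.mulVec_smul] }

theorem loc6_row_apply (Λ : Matrix (Fin (n + 1)) (Fin (N + 1)) ℂ) (a : Fin (n + 1)) (y : Cn (N + 1)) :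
    loc6_row Λ a y = (Λ *ᵥ y.ofLp) a := rfl

/-- The Jacobian of a change of charts (row operations). -/
theorem Chart.det_fderiv_zeta (C : X.Chart) {w : Cn n} (hw : w ∈ C.B) (Λ) (h : ell Λ (C.σ w) ≠ 0) :
    LinearMap.det (fderiv ℂ (fun x => zeta Λ (C.σ x)) w : Cn n →ₗ[ℂ] Cn n) = (Λ * C.U w).det / ell Λ (C.σ w) ^ (n + 1) := by
  have hσ : DifferentiableAt ℂ C.σ w := (C.an w hw).differentiableAt
  have hd : DifferentiableAt ℂ (fun x => zeta Λ (C.σ x)) w :=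
    (analyticAt_zeta Λ h).differentiableAt.comp w hσ
  have hg : ∀ a, HasFDerivAt (fun x => loc6_row Λ a (C.σ x)) ((loc6_row Λ a).comp (fderiv ℂ C.σ w)) w :=
    fun a => (loc6_row Λ a).hasFDerivAt.comp w hσ.hasFDerivAt
  have h00 : (Λ * C.U w) 0 0 = ell Λ (C.σ w) := rfl
  have hj : ∀ (j : Fin n) (e : Cn n), fderiv ℂ (fun x => zeta Λ (C.σ x)) w e j =
      (Λ *ᵥ (fderiv ℂ C.σ w e).ofLp) j.succ / ell Λ (C.σ w) -
        (Λ *ᵥ (C.σ w).ofLp) j.succ * (Λ *ᵥ (fderiv ℂ C.σ w e).ofLp) 0 / ell Λ (C.σ w) ^ 2 := by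
    intro j e
    have h1 := (EuclideanSpace.proj (𝕜 := ℂ) j).hasFDerivAt.comp w hd.hasFDerivAt
    have h2 := (hg j.succ).mul ((hasDerivAt_inv h).comp_hasFDerivAt w (hg 0))
    have h3 := h1.unique (h2.congr_of_eventuallyEq (Eventually.of_forall fun x => div_eq_mul_inv _ _))
    have h4 := congrArg (fun L : Cn n →L[ℂ] ℂ => L e) h3
    simp only [ContinuousLinearMap.comp_apply, _root_.add_apply, _root_.smul_apply, loc6_row_apply, smul_eq_mul,
      Function.comp_apply] at h4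
    refine h4.trans ?_
    simp only [ell]
    simp only [ell] at h
    field_simp
    ring
  rw [loc6_det_schur _ (h00 ▸ h), h00, mul_div_cancel_left₀ _ (pow_ne_zero _ h),
    ← LinearMap.det_toMatrix (EuclideanSpace.basisFun (Fin n) ℂ).toBasis]
  congr 1
  ext j l
  rw [LinearMap.toMatrix_apply]
  simp only [OrthonormalBasis.coe_toBasis, EuclideanSpace.basisFun_apply, OrthonormalBasis.coe_toBasis_repr_apply,
    EuclideanSpace.basisFun_repr, ContinuousLinearMap.coe_coe, hj, Matrix.of_apply]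
  rfl

/-- `gv` in a chart. -/
theorem Chart.gv_eq (C : X.Chart) {w : Cn n} (hw : w ∈ C.B) (v : Fin n → Cn n) :
    gv (C.σ w) (fun j => fderiv ℂ C.σ w (v j)) = gram (C.U w) / ‖C.σ w‖ ^ 2 * ‖(colM v).det‖ ^ 2 := by
  let S : Matrix (Fin (n + 1)) (Fin (n + 1)) ℂ :=
    Matrix.of (Fin.cons (Fin.cons 1 fun _ => 0) fun j => Fin.cons 0 (colM v j))
  have hS : S.det = (colM v).det := by
    rw [Matrix.det_succ_column_zero, Fin.sum_univ_succ, Finset.sum_eq_zero fun i _ => by simp [S], add_zero]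
    simp only [S, Fin.val_zero, pow_zero, Matrix.of_apply, Fin.cons_zero, one_mul]
    congr 1
  have hU : colM (Fin.cons (C.σ w) (fun j => fderiv ℂ C.σ w (v j)) : Fin (n + 1) → Cn (N + 1)) = C.U w * S := by
    ext i a
    rw [Matrix.mul_apply, Fin.sum_univ_succ]
    refine Fin.cases ?_ (fun a => ?_) a
    · simp [S, colM, Chart.U]
    · have e : v a = ∑ l, v a l • EuclideanSpace.single l (1 : ℂ) := by
        ext l; simp [Pi.single_apply]
      simp only [S, colM, Chart.U, Matrix.of_apply, Fin.cons_succ, Fin.cons_zero, mul_zero, zero_add]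
      conv_lhs => rw [e]
      simp [mul_comm]
  rw [gv, hU, gram_mul, hS]
  ring

/-- `ω` is comparable with the flat metric on compact parts of a chart. -/
theorem Chart.om_bounds (C : X.Chart) {K : Set (Cn n)} (hK : IsCompact K) (hKB : K ⊆ C.B) :
    ∃ c₁ c₂ : ℝ, 0 < c₁ ∧ 0 < c₂ ∧ ∀ w ∈ K, ∀ e, c₁ * ‖e‖ ^ 2 ≤ om (C.σ w) (fderiv ℂ C.σ w e) ∧
      om (C.σ w) (fderiv ℂ C.σ w e) ≤ c₂ * ‖e‖ ^ 2 := by
  have hc : ContinuousOn (fun p : Cn n × Cn n => om (C.σ p.1) (fderiv ℂ C.σ p.1 p.2)) (K ×ˢ sphere 0 1) := by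
    have h1 : ContinuousOn (fun p : Cn n × Cn n => C.σ p.1) (K ×ˢ sphere 0 1) :=
      C.an.continuousOn.comp continuousOn_fst fun p hp => hKB hp.1
    have h2 : ContinuousOn (fun p : Cn n × Cn n => fderiv ℂ C.σ p.1 p.2) (K ×ˢ sphere 0 1) :=
      (C.an.fderiv.continuousOn.comp continuousOn_fst fun p hp => hKB hp.1).clm_apply continuousOn_snd
    unfold om
    refine ((((h2.norm.pow 2).mul (h1.norm.pow 2)).sub ((h1.inner (𝕜 := ℂ) h2).norm.pow 2)).div (h1.norm.pow 4)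
      fun p hp => pow_ne_zero _ (norm_ne_zero_iff.2 (C.mem (hKB hp.1)).1))
  have hKS : IsCompact (K ×ˢ sphere (0 : Cn n) 1) := hK.prod (isCompact_sphere 0 1)
  obtain ⟨c₁, hc₁, h₁⟩ := hKS.exists_forall_le' hc (a := 0) fun p hp => by
    refine om_pos (C.mem (hKB hp.1)).1 fun hm => ?_
    obtain ⟨t, ht⟩ := Submodule.mem_span_singleton.1 hm
    have := C.fderiv_zeta (hKB hp.1) p.2 (-t)
    rw [← ht, neg_smul, add_neg_cancel, map_zero] at this
    have h2 := hp.2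
    rw [← this] at h2
    simp at h2
  obtain ⟨c₂, h₂⟩ := hKS.exists_bound_of_continuousOn hc
  refine ⟨c₁, max c₂ 1, hc₁, lt_max_of_lt_right one_pos, fun w hw e => ?_⟩
  rcases eq_or_ne e 0 with rfl | he
  · simp [om]
  · have hn : (‖e‖ : ℂ) ≠ 0 := by simpa using he
    have hs : ((‖e‖ : ℂ)⁻¹ • e) ∈ sphere (0 : Cn n) 1 := by
      simp [norm_smul, he]
    have e1 : om (C.σ w) (fderiv ℂ C.σ w e) =
        ‖e‖ ^ 2 * om (C.σ w) (fderiv ℂ C.σ w ((‖e‖ : ℂ)⁻¹ • e)) := by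
      conv_lhs => rw [← smul_inv_smul₀ hn e, map_smul, om_smul]
      simp
    rw [e1, mul_comm c₁, mul_comm (max c₂ 1)]
    exact ⟨mul_le_mul_of_nonneg_left (h₁ (w, _) ⟨hw, hs⟩) (sq_nonneg _), mul_le_mul_of_nonneg_left
      (((le_abs_self _).trans (h₂ (w, _) ⟨hw, hs⟩)).trans (le_max_left _ _)) (sq_nonneg _)⟩

/-- A finite atlas of balls: for every choice of charts and radii, finitely many small balls cover `X`
(compactness of `Y ∩ sphere`, `Chart.eventually`). -/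
theorem exists_atlas (C : X.Y → X.Chart) (w : X.Y → Cn n) (r : X.Y → ℝ) (hr : ∀ y, 0 < r y) (hw : ∀ y, w y ∈ (C y).B)
    (hy : ∀ y : X.Y, ∃ t : ℂ, t ≠ 0 ∧ y.1 = t • (C y).σ (w y)) :
    ∃ s : Finset X.Y, ∀ x ∈ X.Y, ∃ y ∈ s, ∃ z ∈ ball (w y) (r y) ∩ (C y).B, ∃ t : ℂ, t ≠ 0 ∧ x = t • (C y).σ z := by
  classical
  let U : X.Y → Set (Cn (N + 1)) := fun y =>
    {x | ∃ z ∈ ball (w y) (r y) ∩ (C y).B, ∃ t : ℂ, t ≠ 0 ∧ x = t • (C y).σ z}
  have hU : ∀ y : X.Y, U y ∈ 𝓝[X.Y] y.1 := by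
    intro y
    obtain ⟨t, ht, e⟩ := hy y
    have h1 := (C y).eventually (hw y) ht
    rw [← e] at h1
    have h0 := h1.self_of_nhdsWithin y.2
    have hz : zeta (C y).Λ y.1 = w y := by
      rw [e, zeta_smul _ _ ht, (C y).inv _ (hw y)]
    have h2 : ∀ᶠ x in 𝓝 y.1, zeta (C y).Λ x ∈ ball (w y) (r y) :=
      (analyticAt_zeta _ h0.1).continuousAt.eventually_mem (by rw [hz]; exact ball_mem_nhds _ (hr y))
    filter_upwards [h1, mem_nhdsWithin_of_mem_nhds h2] with x hx hx'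
    exact ⟨_, ⟨hx', hx.2.1⟩, _, hx.1, hx.2.2⟩
  obtain ⟨s, hs⟩ := X.isCompact_Y1.elim_nhdsWithin_subcover' (fun x hx => U ⟨x, hx.1⟩)
    fun x hx => nhdsWithin_mono _ inter_subset_left (hU ⟨x, hx.1⟩)
  refine ⟨s.image fun x => ⟨x.1, x.2.1⟩, fun x hx => ?_⟩
  have hn : 0 < ‖x‖ := norm_pos_iff.2 hx.1
  have hn' : ((‖x‖ : ℝ) : ℂ) ≠ 0 := by exact_mod_cast hn.ne'
  have h1 : ((‖x‖ : ℝ) : ℂ)⁻¹ • x ∈ X.Y ∩ sphere 0 1 :=
    ⟨X.smul_mem_Y hx (inv_ne_zero hn'), by simp [norm_smul, hn.ne']⟩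
  obtain ⟨y, hy1, z, hz, t, ht, e⟩ := mem_iUnion₂.1 (hs h1)
  refine ⟨_, Finset.mem_image_of_mem _ hy1, z, hz, ((‖x‖ : ℝ) : ℂ) * t, mul_ne_zero hn' ht, ?_⟩
  rw [mul_smul, ← e, smul_smul, mul_inv_cancel₀ hn', one_smul]

theorem exists_chart_at {y : Cn (N + 1)} (hy : y ∈ X.Y) :
    ∃ (C : X.Chart) (w : Cn n) (t : ℂ), w ∈ C.B ∧ t ≠ 0 ∧ y = t • C.σ w := by
  obtain ⟨Λ, h0, -, ⟨f, hf⟩, -⟩ := X.exists_Lambda hy hy
  obtain ⟨C, -, h1, h2⟩ := X.exists_chart hy h0 hf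
  exact ⟨C, _, _, h1, h0, by rw [h2, smul_smul, mul_inv_cancel₀ h0, one_smul]⟩

end Geo

end Crest.Agent.R269
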