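import Crest.Agent.R269.A.Loc

/-!
# Row 269, block A: the forms `thB` and `eta` (statements FROZEN)
-/

set_option autoImplicit false
set_option linter.unusedSectionVars false
set_option linter.unusedVariables false

noncomputable section

namespace Crest.Agent.R269

open Set Metric Filter Topology MeasureTheory Matrix
open Crest.AlgGeometry.ProjEmb
open scoped InnerProductSpace ContDiff

namespace Geo

variable {N n : ℕ} (X : Geo N n)

theorem thB1_num {V : Type} [NormedAddCommGroup V] [InnerProductSpace ℂ V] (a b : V) :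
    ‖b‖ ^ 2 * ‖a‖ ^ 2 - ‖⟪a, b⟫_ℂ‖ ^ 2 = ‖a‖ ^ 4 * om a b := by
  by_cases ha : a = 0
  · simp [ha]
  · have : ‖a‖ ≠ 0 := norm_ne_zero_iff.2 ha
    rw [om]
    field_simp

theorem thB1_def (y v : Cn (N + 1)) : X.thB y v =
    (∑ f : X.Fi, ‖X.dv f y‖ ^ 4 * om (X.dv f y) (fderiv ℂ (X.dv f) y v)) / ∑ f : X.Fi, ‖X.dv f y‖ ^ 4 := by
  simp only [thB, thB1_num]

theorem thB1_den {y : Cn (N + 1)} (hy : y ∈ X.Y) : 0 < ∑ f : X.Fi, ‖X.dv f y‖ ^ 4 := by
  obtain ⟨f, hf⟩ := X.exists_dv_ne hy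
  exact Finset.sum_pos' (fun g _ => by positivity) ⟨f, Finset.mem_univ _, pow_pos (norm_pos_iff.2 hf) 4⟩

theorem thB1_line {x : Cn (N + 1)} (hx : x ∈ X.Y) {p : PE N n} (hp : p ∈ X.pl x) {β} (hβ : p β ≠ 0) (f : X.Fi) :
    X.dv f x = (X.dv f x β / p β) • p := by
  obtain ⟨U, hU⟩ := X.exists_frame hx
  have h1 : X.dv f x ∈ X.pl x := Submodule.subset_span ⟨f, rfl⟩
  rw [X.pl_eq hx hU, Submodule.mem_span_singleton] at hp h1
  obtain ⟨a, rfl⟩ := hp
  obtain ⟨b, hb⟩ := h1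
  rw [← hb, smul_smul]
  simp only [PiLp.smul_apply, smul_eq_mul] at hβ ⊢
  congr 1
  have h2 := left_ne_zero_of_mul hβ
  have h3 := right_ne_zero_of_mul hβ
  field_simp

theorem thB1_term {V : Type} [NormedAddCommGroup V] [InnerProductSpace ℂ V] (p q : V) (h c : ℂ) :
    ‖h • p‖ ^ 4 * om (h • p) (h • q + c • p) = ‖h • p‖ ^ 4 * om p q := by
  by_cases h0 : h = 0
  · simp [h0]
  · have : h • q + c • p = h • (q + (c / h) • p) := by
      rw [smul_add, smul_smul, mul_div_cancel₀ _ h0]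
    rw [this, om_smul_smul _ _ h0, om_add_self]

/-- Near `y` on `Y`, `dv f = h_f • P` with `h_f = (dv f)_β / P_β` analytic (`pl` is a line); `fderiv_congr_Y`,
`om_smul_smul`, `om_add_self`; each term of the numerator is `‖dv f y‖ ^ 4 * om (P y) (dP v)`. -/
theorem thB_eq {y : Cn (N + 1)} (hy : y ∈ X.Y) {P : Cn (N + 1) → PE N n} (hP : AnalyticAt ℂ P y) (h0 : P y ≠ 0)
    (hpl : ∀ᶠ x in 𝓝[X.Y] y, P x ∈ X.pl x) {v : Cn (N + 1)} (hv : v ∈ X.T y) :
    X.thB y v = om (P y) (fderiv ℂ P y v) := by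
  obtain ⟨β, hβ⟩ : ∃ β, P y β ≠ 0 := by
    by_contra h
    push Not at h
    exact h0 (by ext β; simpa using h β)
  have hPβ : AnalyticAt ℂ (fun x => P x β) y := ((EuclideanSpace.proj (𝕜 := ℂ) β).analyticAt _).comp hP
  have hne : ∀ᶠ x in 𝓝[X.Y] y, P x β ≠ 0 := (hPβ.continuousAt.eventually_ne hβ).filter_mono nhdsWithin_le_nhds
  have key : ∀ f : X.Fi, ‖X.dv f y‖ ^ 4 * om (X.dv f y) (fderiv ℂ (X.dv f) y v) =
      ‖X.dv f y‖ ^ 4 * om (P y) (fderiv ℂ P y v) := fun f => by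
    have hh : AnalyticAt ℂ (fun x => X.dv f x β / P x β) y :=
      (((EuclideanSpace.proj (𝕜 := ℂ) β).analyticAt _).comp (X.analyticAt_dv f y)).div hPβ hβ
    have e : X.dv f =ᶠ[𝓝[X.Y] y] fun x => (X.dv f x β / P x β) • P x := by
      filter_upwards [hpl, hne, self_mem_nhdsWithin] with x h1 h2 h3 using X.thB1_line h3 h1 h2 f
    have e1 := X.fderiv_congr_Y hy (X.analyticAt_dv f y).differentiableAt
      (hh.differentiableAt.smul hP.differentiableAt) e hv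
    have e2 : X.dv f y = (X.dv f y β / P y β) • P y := e.eq_of_nhdsWithin hy
    rw [e1, fderiv_smul hh.differentiableAt hP.differentiableAt]
    simp only [_root_.add_apply, _root_.smul_apply, ContinuousLinearMap.smulRight_apply]
    generalize X.dv f y β / P y β = c at e2 ⊢
    rw [e2, thB1_term]
  rw [thB1_def, Finset.sum_congr rfl fun f _ => key f, ← Finset.sum_mul, mul_div_cancel_left₀ _ (X.thB1_den hy).ne']

theorem thB_eq_levi {y : Cn (N + 1)} (hy : y ∈ X.Y) {P : Cn (N + 1) → PE N n} (hP : AnalyticAt ℂ P y) (h0 : P y ≠ 0)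
    (hpl : ∀ᶠ x in 𝓝[X.Y] y, P x ∈ X.pl x) {v : Cn (N + 1)} (hv : v ∈ X.T y) :
    levi (fun x => Real.log (‖P x‖ ^ 2)) y v = X.thB y v := by
  rw [X.thB_eq hy hP h0 hpl hv, ← levi_log_norm_sq h0]
  exact levi_comp_hol (f := fun x : PE N n => Real.log (‖x‖ ^ 2)) ((contDiffAt_log_norm_sq h0).of_le (by norm_cast)) hP v

theorem thB_nonneg (y v : Cn (N + 1)) : 0 ≤ X.thB y v := by
  rw [thB1_def]
  exact div_nonneg (Finset.sum_nonneg fun f _ => mul_nonneg (by positivity) (om_nonneg _ _))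
    (Finset.sum_nonneg fun f _ => by positivity)

theorem thB_smul (y v : Cn (N + 1)) (t : ℂ) : X.thB y (t • v) = ‖t‖ ^ 2 * X.thB y v := by
  simp only [thB1_def, map_smul, om_smul, mul_left_comm _ (‖t‖ ^ 2), ← Finset.mul_sum, mul_div_assoc]

theorem thB1_dv_smul (f : X.Fi) (y : Cn (N + 1)) (t : ℂ) : X.dv f (t • y) = t ^ (X.c * (X.e - 1)) • X.dv f y := by
  ext β
  simp [dv, X.dl_smul]

theorem thB1_fderiv_smul (f : X.Fi) (y v : Cn (N + 1)) (t : ℂ) :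
    fderiv ℂ (X.dv f) (t • y) (t • v) = t ^ (X.c * (X.e - 1)) • fderiv ℂ (X.dv f) y v := by
  have h1 : HasFDerivAt (fun x => X.dv f (t • x)) ((fderiv ℂ (X.dv f) (t • y)).comp (t • ContinuousLinearMap.id ℂ _)) y :=
    (X.analyticAt_dv f (t • y)).differentiableAt.hasFDerivAt.comp y ((hasFDerivAt_id y).const_smul t)
  have h2 : HasFDerivAt (fun x => X.dv f (t • x)) (t ^ (X.c * (X.e - 1)) • fderiv ℂ (X.dv f) y) y := by
    simp only [thB1_dv_smul]
    exact (X.analyticAt_dv f y).differentiableAt.hasFDerivAt.const_smul (t ^ (X.c * (X.e - 1)))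
  simpa using congrArg (fun L => L v) (h1.unique h2)

theorem thB1_euler (f : X.Fi) (y : Cn (N + 1)) :
    fderiv ℂ (X.dv f) y y = ((X.c * (X.e - 1) : ℕ) : ℂ) • X.dv f y := by
  have h0 : HasDerivAt (fun t : ℂ => t • y) y 1 := by simpa using (hasDerivAt_id (1 : ℂ)).smul_const y
  have h1 : HasDerivAt (fun t : ℂ => X.dv f (t • y)) (fderiv ℂ (X.dv f) y y) 1 :=
    (X.analyticAt_dv f y).differentiableAt.hasFDerivAt.comp_hasDerivAt_of_eq 1 h0 (one_smul ℂ y).symm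
  have h2 : HasDerivAt (fun t : ℂ => X.dv f (t • y)) (((X.c * (X.e - 1) : ℕ) : ℂ) • X.dv f y) 1 := by
    simp only [thB1_dv_smul]
    simpa using (hasDerivAt_pow (X.c * (X.e - 1)) (1 : ℂ)).smul_const (X.dv f y)
  exact h1.unique h2

theorem thB_smul_smul (y v : Cn (N + 1)) {t : ℂ} (ht : t ≠ 0) : X.thB (t • y) (t • v) = X.thB y v := by
  have h : ‖t ^ (X.c * (X.e - 1))‖ ^ 4 ≠ 0 := pow_ne_zero _ (norm_ne_zero_iff.2 (pow_ne_zero _ ht))
  simp only [thB1_def, thB1_dv_smul, thB1_fderiv_smul, om_smul_smul _ _ (pow_ne_zero _ ht), norm_smul, mul_pow,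
    mul_assoc, ← Finset.mul_sum]
  rw [mul_div_mul_left _ _ h]

theorem thB_add_self {y : Cn (N + 1)} (hy : y ∈ X.Y) (v : Cn (N + 1)) (t : ℂ) : X.thB y (v + t • y) = X.thB y v := by
  simp only [thB1_def, map_add, map_smul, thB1_euler, smul_smul, om_add_self]

theorem continuousOn_thB : ContinuousOn (fun p : Cn (N + 1) × Cn (N + 1) => X.thB p.1 p.2) (X.Y ×ˢ univ) := by
  have h1 : ∀ f : X.Fi, Continuous fun p : Cn (N + 1) × Cn (N + 1) => X.dv f p.1 := fun f =>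
    (continuous_iff_continuousAt.2 fun y => (X.analyticAt_dv f y).continuousAt).comp continuous_fst
  have h2 : ∀ f : X.Fi, Continuous fun p : Cn (N + 1) × Cn (N + 1) => fderiv ℂ (X.dv f) p.1 p.2 := fun f =>
    ((continuous_iff_continuousAt.2 fun y => (X.analyticAt_dv f y).fderiv.continuousAt).comp continuous_fst).clm_apply
      continuous_snd
  refine ContinuousOn.div (Continuous.continuousOn ?_) (Continuous.continuousOn ?_) fun p hp => (X.thB1_den hp.1).ne'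
  · exact continuous_finsetSum _ fun f _ =>
      (((h2 f).norm.pow 2).mul ((h1 f).norm.pow 2)).sub (((h1 f).inner (h2 f)).norm.pow 2)
  · exact continuous_finsetSum _ fun f _ => (h1 f).norm.pow 4

theorem thB_le : ∃ C : ℝ, 0 ≤ C ∧ ∀ y ∈ X.Y, ∀ v, X.thB y v ≤ C * om y v := by
  obtain ⟨C, hC⟩ := (X.isCompact_Y1.prod (isCompact_sphere (0 : Cn (N + 1)) 1)).exists_bound_of_continuousOn
    (X.continuousOn_thB.mono (prod_mono inter_subset_left (subset_univ _)))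
  refine ⟨max C 0, le_max_right _ _, fun y hy v => ?_⟩
  have h0 : 0 < ‖y‖ := norm_pos_iff.2 hy.1
  set t : ℂ := -(⟪y, v⟫_ℂ / ⟪y, y⟫_ℂ) with ht
  have h1 : ⟪y, v + t • y⟫_ℂ = 0 := by
    have : ⟪y, y⟫_ℂ ≠ 0 := inner_self_ne_zero.2 hy.1
    rw [inner_add_right, inner_smul_right, ht]; field_simp; ring
  rw [← X.thB_add_self hy v t, ← om_add_self y v t, om_of_orth h1]
  generalize v + t • y = w
  by_cases hw : w = 0
  · have := X.thB_smul y w 0
    simp only [hw, smul_zero, norm_zero, ne_eq, OfNat.ofNat_ne_zero, not_false_eq_true, zero_pow, zero_mul] at this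
    simp [hw, this]
  have h2 : 0 < ‖w‖ := norm_pos_iff.2 hw
  have hs : ((‖y‖⁻¹ : ℝ) : ℂ) ≠ 0 := by simpa using hy.1
  have e : ((‖y‖⁻¹ : ℝ) : ℂ) • w = ((‖w‖ / ‖y‖ : ℝ) : ℂ) • (((‖w‖⁻¹ : ℝ) : ℂ) • w) := by
    rw [smul_smul, ← Complex.ofReal_mul]
    congr 2
    field_simp
  have h3 := hC (((‖y‖⁻¹ : ℝ) : ℂ) • y, ((‖w‖⁻¹ : ℝ) : ℂ) • w) ⟨⟨X.smul_mem_Y hy hs, by
    simp [norm_smul, h0.ne']⟩, by simp [norm_smul, h2.ne']⟩
  rw [← X.thB_smul_smul y w hs, e, thB_smul, Complex.norm_real, Real.norm_of_nonneg (by positivity), div_pow, mul_comm]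
  exact mul_le_mul_of_nonneg_right ((le_abs_self _).trans (h3.trans (le_max_left _ _))) (by positivity)

theorem fderiv_self_of_hom0 {V W : Type} [NormedAddCommGroup V] [NormedSpace ℂ V] [NormedAddCommGroup W]
    [NormedSpace ℂ W] {φ : V → W} {y : V} (hφ : DifferentiableAt ℂ φ y)
    (h : ∀ t : ℂ, t ≠ 0 → φ (t • y) = φ y) : fderiv ℂ φ y y = 0 := by
  have h1 : HasDerivAt (fun t : ℂ => t • y) y 1 := by
    simpa using (hasDerivAt_id (1 : ℂ)).smul_const y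
  have h2 : HasFDerivAt φ (fderiv ℂ φ y) ((fun t : ℂ => t • y) 1) := by
    simpa using hφ.hasFDerivAt
  have h3 := h2.comp_hasDerivAt (1 : ℂ) h1
  have h4 : (φ ∘ fun t : ℂ => t • y) =ᶠ[𝓝 1] fun _ => φ y := by
    filter_upwards [isOpen_ne.mem_nhds (one_ne_zero (α := ℂ))] with t ht using h t ht
  exact h3.unique ((hasDerivAt_const (1 : ℂ) (φ y)).congr_of_eventuallyEq h4)

/-- For `q` which is `C²` at `y` and `0`-homogeneous on `Y`: in a chart `q = (q ∘ σ) ∘ zeta` on `Y`. -/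
theorem levi_add_self {q : Cn (N + 1) → ℝ} {y : Cn (N + 1)} (hy : y ∈ X.Y) (hq : ContDiffAt ℝ 2 q y) (h : X.Hom0 q)
    {v : Cn (N + 1)} (hv : v ∈ X.T y) (t : ℂ) : levi q y (v + t • y) = levi q y v := by
  obtain ⟨C, w, s, hw, hs, hys⟩ := exists_chart_at hy
  have hev := C.eventually hw hs
  rw [← hys] at hev
  have hyy := hev.self_of_nhdsWithin hy
  have hz : zeta C.Λ y = w := by rw [hys, zeta_smul _ _ hs, C.inv w hw]
  let φ : Cn (N + 1) → Cn (N + 1) := fun x => s • C.σ (zeta C.Λ x)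
  have hφy : φ y = y := by simp only [φ, hz]; exact hys.symm
  have hφ : AnalyticAt ℂ φ y := by
    have h1 : AnalyticAt ℂ C.σ (zeta C.Λ y) := by rw [hz]; exact C.an w hw
    exact (h1.comp (analyticAt_zeta C.Λ hyy.1)).fun_const_smul (c := s)
  have hq' : ContDiffAt ℝ 2 q (φ y) := by rw [hφy]; exact hq
  have hg : ContDiffAt ℝ 2 (fun x => q (φ x)) y :=
    hq'.comp y ((hφ.contDiffAt (n := 2)).restrict_scalars ℝ)
  have heq : q =ᶠ[𝓝[X.Y] y] fun x => q (φ x) := by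
    filter_upwards [hev] with x hx
    have hm : C.σ (zeta C.Λ x) ∈ X.Y := C.mem hx.2.1
    calc q x = q (ell C.Λ x • C.σ (zeta C.Λ x)) := by rw [← hx.2.2]
      _ = q (C.σ (zeta C.Λ x)) := h _ hm _ hx.1
      _ = q (φ x) := (h _ hm _ hs).symm
  have h0 : fderiv ℂ φ y y = 0 :=
    fderiv_self_of_hom0 hφ.differentiableAt fun r hr => by simp only [φ, zeta_smul _ _ hr]
  have hv' : v + t • y ∈ X.T y := (X.T y).add_mem hv ((X.T y).smul_mem t (X.self_mem_T hy))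
  rw [X.levi_congr_Y hy hq hg heq hv', X.levi_congr_Y hy hq hg heq hv, levi_comp_hol hq' hφ,
    levi_comp_hol hq' hφ, map_add, map_smul, h0, smul_zero, add_zero]

theorem eta_add_self (a b : ℝ) {q : Cn (N + 1) → ℝ} {y : Cn (N + 1)} (hy : y ∈ X.Y) (hq : ContDiffAt ℝ 2 q y)
    (h : X.Hom0 q) {v : Cn (N + 1)} (hv : v ∈ X.T y) (t : ℂ) : X.eta a b q y (v + t • y) = X.eta a b q y v := by
  unfold eta
  rw [X.thB_add_self hy, om_add_self, X.levi_add_self hy hq h hv]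

theorem eta_smul (a b : ℝ) (q : Cn (N + 1) → ℝ) (y v : Cn (N + 1)) (t : ℂ) :
    X.eta a b q y (t • v) = ‖t‖ ^ 2 * X.eta a b q y v := by
  unfold eta
  rw [X.thB_smul, om_smul, levi_smul]
  ring

theorem eta_smul_smul (a b : ℝ) {q : Cn (N + 1) → ℝ} {y : Cn (N + 1)} (hy : y ∈ X.Y) {t : ℂ} (ht : t ≠ 0)
    (hq : ContDiffAt ℝ 2 q y) (hq' : ContDiffAt ℝ 2 q (t • y)) (h : X.Hom0 q) {v : Cn (N + 1)} (hv : v ∈ X.T y) :
    X.eta a b q (t • y) (t • v) = X.eta a b q y v := by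
  unfold eta
  have hφ : AnalyticAt ℂ (fun x : Cn (N + 1) => t • x) y := analyticAt_id.fun_const_smul (c := t)
  have hd : fderiv ℂ (fun x : Cn (N + 1) => t • x) y v = t • v := by
    have : HasFDerivAt (fun x : Cn (N + 1) => t • x) (t • ContinuousLinearMap.id ℂ _) y :=
      (hasFDerivAt_id y).fun_const_smul t
    rw [this.fderiv]
    simp
  have hg : ContDiffAt ℝ 2 (fun x => q (t • x)) y :=
    hq'.comp y ((hφ.contDiffAt (n := 2)).restrict_scalars ℝ)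
  have heq : q =ᶠ[𝓝[X.Y] y] fun x => q (t • x) := by
    filter_upwards [self_mem_nhdsWithin] with x hx using (h x hx t ht).symm
  rw [X.thB_smul_smul y v ht, om_smul_smul y v ht, X.levi_congr_Y hy hq hg heq hv,
    levi_comp_hol (φ := fun x : Cn (N + 1) => t • x) hq' hφ, hd]

theorem continuousWithinAt_eta (a b : ℝ) {q : Cn (N + 1) → ℝ} {y : Cn (N + 1)} (hy : y ∈ X.Y) (hq : ContDiffAt ℝ 2 q y)
    (v : Cn (N + 1)) :
    ContinuousWithinAt (fun p : Cn (N + 1) × Cn (N + 1) => X.eta a b q p.1 p.2) (X.Y ×ˢ univ) (y, v) := by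
  unfold eta
  have h1 := X.continuousOn_thB (y, v) ⟨hy, mem_univ _⟩
  have h2 : ContinuousAt (fun p : Cn (N + 1) × Cn (N + 1) => om p.1 p.2) (y, v) := by
    unfold om
    refine ContinuousAt.div (by fun_prop) (by fun_prop) ?_
    exact pow_ne_zero _ (norm_ne_zero_iff.2 hy.1)
  exact ((continuousWithinAt_const.mul h1).add (continuousWithinAt_const.mul h2.continuousWithinAt)).add
    (continuousAt_levi hq v).continuousWithinAt

theorem eta_abs_le (a b : ℝ) {u : Cn (N + 1) → ℝ} (hu : X.Adm u) :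
    ∃ C : ℝ, 0 ≤ C ∧ ∀ y ∈ X.Y, ∀ v ∈ X.T y, |X.eta a b u y v| ≤ C * om y v := by
  have hK : IsCompact ((X.Y ∩ sphere 0 1) ×ˢ closedBall (0 : Cn (N + 1)) 1) :=
    X.isCompact_Y1.prod (isCompact_closedBall 0 1)
  have hc : ContinuousOn (fun p : Cn (N + 1) × Cn (N + 1) => X.eta a b u p.1 p.2)
      ((X.Y ∩ sphere 0 1) ×ˢ closedBall (0 : Cn (N + 1)) 1) := fun p hp =>
    (X.continuousWithinAt_eta a b hp.1.1 (hu.1 _ hp.1.1.1) p.2).mono fun p' hp' => ⟨hp'.1.1, mem_univ _⟩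
  obtain ⟨C, hC⟩ := hK.exists_bound_of_continuousOn hc
  have key : ∀ y ∈ X.Y, ‖y‖ = 1 → ∀ v, |X.eta a b u y v| ≤ max C 0 * ‖v‖ ^ 2 := by
    intro y hy hy1 v
    rcases eq_or_ne v 0 with rfl | hv
    · have := X.eta_smul a b u y 0 0
      simp only [smul_zero, norm_zero] at this
      rw [this]; simp
    · have hn : 0 < ‖v‖ := norm_pos_iff.2 hv
      have e : v = ((‖v‖ : ℝ) : ℂ) • (((‖v‖ : ℝ) : ℂ)⁻¹ • v) := by
        rw [smul_inv_smul₀ (by exact_mod_cast hn.ne')]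
      have h1 : ‖((‖v‖ : ℝ) : ℂ)⁻¹ • v‖ ≤ 1 := by
        rw [norm_smul, norm_inv, Complex.norm_real, norm_norm, inv_mul_cancel₀ hn.ne']
      have h2 := hC (y, ((‖v‖ : ℝ) : ℂ)⁻¹ • v) ⟨⟨hy, by simpa using hy1⟩, by simpa using h1⟩
      conv_lhs => rw [e, X.eta_smul]
      rw [abs_mul, abs_of_nonneg (by positivity), Complex.norm_real, norm_norm, mul_comm]
      exact mul_le_mul_of_nonneg_right (h2.trans (le_max_left _ _)) (by positivity)
  refine ⟨max C 0, le_max_right _ _, fun y hy v hv => ?_⟩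
  have hn : 0 < ‖y‖ := norm_pos_iff.2 hy.1
  set t : ℂ := ((‖y‖ : ℝ) : ℂ)⁻¹ with ht
  have ht0 : t ≠ 0 := inv_ne_zero (by exact_mod_cast hn.ne')
  have hy' : t • y ∈ X.Y := X.smul_mem_Y hy ht0
  have hn' : ‖t • y‖ = 1 := by
    rw [ht, norm_smul, norm_inv, Complex.norm_real, norm_norm, inv_mul_cancel₀ hn.ne']
  have hv' : t • v ∈ X.T (t • y) := by rw [X.T_smul y ht0]; exact (X.T y).smul_mem t hv
  rw [← X.eta_smul_smul a b hy ht0 (hu.1 _ hy.1) (hu.1 _ hy'.1) hu.2 hv, ← om_smul_smul y v ht0]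
  generalize t • y = y' at hy' hn' hv'
  generalize t • v = v' at hv'
  have ho : ⟪y', v' + (-⟪y', v'⟫_ℂ) • y'⟫_ℂ = 0 := by
    rw [inner_add_right, inner_smul_right, inner_self_eq_norm_sq_to_K, hn']
    simp
  rw [← X.eta_add_self a b hy' (hu.1 _ hy'.1) hu.2 hv' (-⟪y', v'⟫_ℂ), ← om_add_self y' v' (-⟪y', v'⟫_ℂ),
    om_of_orth ho, hn']
  simpa using key y' hy' hn' _

/-- `Q y` is the quadratic form of a continuous field of Hermitian matrices on `S`. -/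
def HQ {m : ℕ} (S : Set (Cn m)) (Q : Cn m → Cn m → ℝ) : Prop :=
  ∃ A : Cn m → Matrix (Fin m) (Fin m) ℂ, ContinuousOn A S ∧
    ∀ y ∈ S, (A y).IsHermitian ∧ ∀ v, qf (A y) v = Q y v

theorem HQ.congr {m : ℕ} {S : Set (Cn m)} {Q Q' : Cn m → Cn m → ℝ} (h : HQ S Q)
    (e : ∀ y ∈ S, ∀ v, Q y v = Q' y v) : HQ S Q' := by
  obtain ⟨A, hA, h⟩ := h
  exact ⟨A, hA, fun y hy => ⟨(h y hy).1, fun v => ((h y hy).2 v).trans (e y hy v)⟩⟩

theorem HQ.add {m : ℕ} {S : Set (Cn m)} {Q Q' : Cn m → Cn m → ℝ} (h : HQ S Q) (h' : HQ S Q') :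
    HQ S fun y v => Q y v + Q' y v := by
  obtain ⟨A, hA, h⟩ := h
  obtain ⟨A', hA', h'⟩ := h'
  refine ⟨fun y => A y + A' y, hA.add hA', fun y hy => ⟨(h y hy).1.add (h' y hy).1, fun v => ?_⟩⟩
  beta_reduce
  rw [← (h y hy).2 v, ← (h' y hy).2 v]
  simp [qf, add_mulVec]

theorem HQ.mul {m : ℕ} {S : Set (Cn m)} {Q : Cn m → Cn m → ℝ} (h : HQ S Q) {c : Cn m → ℝ}
    (hc : ContinuousOn c S) : HQ S fun y v => c y * Q y v := by
  obtain ⟨A, hA, h⟩ := h
  refine ⟨fun y => ((c y : ℝ) : ℂ) • A y, (Complex.continuous_ofReal.comp_continuousOn hc).smul hA,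
    fun y hy => ⟨?_, fun v => ?_⟩⟩
  · unfold Matrix.IsHermitian
    rw [conjTranspose_smul, (h y hy).1.eq]
    simp
  · beta_reduce
    rw [← (h y hy).2 v]
    simp [qf, smul_mulVec]

theorem HQ.sum {m : ℕ} {S : Set (Cn m)} {ι : Type} (s : Finset ι) {Q : ι → Cn m → Cn m → ℝ}
    (h : ∀ i ∈ s, HQ S (Q i)) : HQ S fun y v => ∑ i ∈ s, Q i y v := by
  classical
  induction s using Finset.induction_on with
  | empty => exact ⟨fun _ => 0, continuousOn_const, fun y _ => ⟨isHermitian_zero, fun v => by simp [qf]⟩⟩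
  | insert i s hi ih =>
    refine ((h i (Finset.mem_insert_self _ _)).add
      (ih fun j hj => h j (Finset.mem_insert_of_mem hj))).congr fun y _ v => ?_
    rw [Finset.sum_insert hi]

theorem HQ.normSq {m : ℕ} {S : Set (Cn m)} {W : Type} [NormedAddCommGroup W] [InnerProductSpace ℂ W]
    {L : Cn m → (Cn m →L[ℂ] W)} (hL : ContinuousOn L S) : HQ S fun y v => ‖L y v‖ ^ 2 := by
  refine ⟨fun y => Matrix.of fun i j => ⟪L y (EuclideanSpace.single i 1), L y (EuclideanSpace.single j 1)⟫_ℂ, ?_,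
    fun y hy => ⟨?_, fun v => ?_⟩⟩
  · refine continuousOn_pi.2 fun i => continuousOn_pi.2 fun j => ?_
    exact (hL.clm_apply continuousOn_const).inner (hL.clm_apply continuousOn_const)
  · ext i j
    simp [conjTranspose_apply]
  · have e : v = ∑ i, v i • (EuclideanSpace.single i 1 : Cn m) := by
      ext j
      simp [Pi.single_apply]
    have e2 : L y v = ∑ i, v i • L y (EuclideanSpace.single i 1) := by
      conv_lhs => rw [e]
      simp
    beta_reduce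
    rw [← inner_self_eq_norm_sq (𝕜 := ℂ), e2, sum_inner]
    simp only [qf, dotProduct, mulVec, inner_sum, inner_smul_left, inner_smul_right, Finset.mul_sum,
      Pi.star_apply, RCLike.star_def, RCLike.re_to_complex, Matrix.of_apply]
    congr 1
    refine Finset.sum_congr rfl fun i _ => Finset.sum_congr rfl fun j _ => ?_
    ring

theorem HQ.levi {m : ℕ} {S : Set (Cn m)} {f : Cn m → ℝ} (hf : ∀ y ∈ S, ContDiffAt ℝ 2 f y) :
    HQ S (levi f) :=
  ⟨leviM f, fun y hy => (continuousAt_leviM (hf y hy)).continuousWithinAt,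
    fun y hy => ⟨leviM_herm (hf y hy), qf_leviM (hf y hy)⟩⟩

theorem hq_thB : HQ X.Y X.thB := by
  have hp : ∀ f, Continuous (X.dv f) := fun f =>
    continuous_iff_continuousAt.2 fun y => (X.analyticAt_dv f y).continuousAt
  have hD : ∀ f, Continuous (fderiv ℂ (X.dv f)) := fun f =>
    continuous_iff_continuousAt.2 fun y => (X.analyticAt_dv f y).fderiv.continuousAt
  have h1 : ∀ f ∈ (Finset.univ : Finset X.Fi), HQ X.Y fun y v => ‖fderiv ℂ (X.dv f) y v‖ ^ 2 * ‖X.dv f y‖ ^ 2 -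
      ‖⟪X.dv f y, fderiv ℂ (X.dv f) y v⟫_ℂ‖ ^ 2 := by
    intro f _
    have a1 := (HQ.normSq (S := X.Y) (hD f).continuousOn).mul (c := fun y => ‖X.dv f y‖ ^ 2)
      ((hp f).norm.pow 2).continuousOn
    have a2 := (HQ.normSq (S := X.Y) (L := fun y => (innerSL ℂ (X.dv f y)).comp (fderiv ℂ (X.dv f) y))
      ((((innerSL ℂ).continuous.comp (hp f)).clm_comp (hD f)).continuousOn)).mul (c := fun _ => -1)
      continuousOn_const
    refine (a1.add a2).congr fun y _ v => ?_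
    simp only [ContinuousLinearMap.comp_apply, innerSL_apply_apply]
    ring
  have h2 : ContinuousOn (fun y => (∑ f : X.Fi, ‖X.dv f y‖ ^ 4)⁻¹) X.Y := by
    refine ContinuousOn.inv₀ (continuous_finsetSum _ fun f _ => (hp f).norm.pow 4).continuousOn fun y hy => ?_
    obtain ⟨f, hf⟩ := X.exists_dv_ne hy
    exact (Finset.sum_pos' (fun g _ => by positivity)
      ⟨f, Finset.mem_univ _, pow_pos (norm_pos_iff.2 hf) 4⟩).ne'
  refine ((HQ.sum _ h1).mul h2).congr fun y _ v => ?_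
  rw [thB, div_eq_inv_mul]

/-- `eta` is the quadratic form of a continuous field of Hermitian matrices. -/
theorem exists_etaM (a b : ℝ) {u : Cn (N + 1) → ℝ} (hu : X.Adm u) :
    ∃ A : Cn (N + 1) → Matrix (Fin (N + 1)) (Fin (N + 1)) ℂ, ContinuousOn A X.Y ∧
      ∀ y ∈ X.Y, (A y).IsHermitian ∧ ∀ v, qf (A y) v = X.eta a b u y v := by
  have h1 : HQ X.Y (om (V := Cn (N + 1))) :=
    (HQ.levi (f := fun x => Real.log (‖x‖ ^ 2)) fun y hy =>
      (contDiffAt_log_norm_sq hy.1).of_le (WithTop.coe_le_coe.2 le_top)).congr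
      fun y hy v => levi_log_norm_sq hy.1 v
  exact (((hq_thB X).mul (c := fun _ => a) continuousOn_const).add
    (h1.mul (c := fun _ => b) continuousOn_const)).add (HQ.levi fun y hy => hu.1 y hy.1)

theorem Adm.bdd {X : Geo N n} {u : Cn (N + 1) → ℝ} (hu : X.Adm u) : ∃ B, ∀ y ∈ X.Y, |u y| ≤ B := by
  obtain ⟨C, hC⟩ := X.isCompact_Y1.exists_bound_of_continuousOn (f := u) fun y hy =>
    (hu.1 y hy.1.1).continuousAt.continuousWithinAt
  refine ⟨C, fun y hy => ?_⟩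
  have hn : 0 < ‖y‖ := norm_pos_iff.2 hy.1
  have ht0 : ((‖y‖ : ℝ) : ℂ)⁻¹ ≠ 0 := inv_ne_zero (by exact_mod_cast hn.ne')
  have hn' : ‖((‖y‖ : ℝ) : ℂ)⁻¹ • y‖ = 1 := by
    rw [norm_smul, norm_inv, Complex.norm_real, norm_norm, inv_mul_cancel₀ hn.ne']
  rw [← hu.2 y hy _ ht0]
  exact hC _ ⟨X.smul_mem_Y hy ht0, by simpa using hn'⟩

variable {X}

theorem thb3_log {V W : Type} [NormedAddCommGroup V] [NormedSpace ℝ V] [NormedSpace ℂ V] [IsScalarTower ℝ ℂ V]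
    [NormedAddCommGroup W] [InnerProductSpace ℂ W] [NormedSpace ℝ W] [IsScalarTower ℝ ℂ W] [CompleteSpace W]
    {g : V → W} {x : V}
    (hg : AnalyticAt ℂ g x) (h0 : g x ≠ 0) : ContDiffAt ℝ ∞ (fun y => Real.log (‖g y‖ ^ 2)) x :=
  ((hg.contDiffAt.restrict_scalars ℝ).norm_sq ℂ).log (pow_ne_zero _ (norm_ne_zero_iff.2 h0))

theorem thb3_dv_ne {y : Cn (N + 1)} (hy : y ∈ X.Y) {Λ} {f : X.Fi} (hf : X.dl f Λ y ≠ 0) : X.dv f y ≠ 0 := by
  obtain ⟨C, -, hC⟩ := X.norm_dl_le Λ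
  intro h
  have := hC f y hy
  rw [h, norm_zero, mul_zero] at this
  exact hf (norm_le_zero_iff.1 this)

/-- The form `eta` in a chart. -/
theorem Chart.levi_eq (C : X.Chart) {w : Cn n} (hw : w ∈ C.B) {f : X.Fi} (hf : X.dv f (C.σ w) ≠ 0) (a b : ℝ)
    {q : Cn (N + 1) → ℝ} (hq : ContDiffAt ℝ 2 q (C.σ w)) (e : Cn n) :
    levi (fun x => a * Real.log (‖X.dv f (C.σ x)‖ ^ 2) + b * Real.log (‖C.σ x‖ ^ 2) + q (C.σ x)) w e =
      X.eta a b q (C.σ w) (fderiv ℂ C.σ w e) := by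
  have hy : C.σ w ∈ X.Y := C.mem hw
  have h1 : ContDiffAt ℝ 2 (fun y => Real.log (‖X.dv f y‖ ^ 2)) (C.σ w) :=
    (thb3_log (X.analyticAt_dv f _) hf).of_le (by norm_cast)
  have h2 : ContDiffAt ℝ 2 (fun y : Cn (N + 1) => Real.log (‖y‖ ^ 2)) (C.σ w) :=
    (contDiffAt_log_norm_sq hy.1).of_le (by norm_cast)
  have h1' : ContDiffAt ℝ 2 (fun y => a * Real.log (‖X.dv f y‖ ^ 2)) (C.σ w) := contDiffAt_const.mul h1
  have h2' : ContDiffAt ℝ 2 (fun y : Cn (N + 1) => b * Real.log (‖y‖ ^ 2)) (C.σ w) := contDiffAt_const.mul h2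
  have hv : fderiv ℂ C.σ w e ∈ X.T (C.σ w) :=
    X.fderiv_mem_T (C.an w hw).differentiableAt
      (Filter.mem_of_superset (C.isOpen.mem_nhds hw) fun z hz => C.mem hz) e
  rw [levi_comp_hol (f := fun y => a * Real.log (‖X.dv f y‖ ^ 2) + b * Real.log (‖y‖ ^ 2) + q y)
      ((h1'.add h2').add hq) (C.an w hw), levi_add (h1'.add h2') hq, levi_add h1' h2', levi_const_mul h1,
    levi_const_mul h2, levi_log_norm_sq hy.1,
    X.thB_eq_levi hy (X.analyticAt_dv f _) hf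
      (Eventually.of_forall fun x => Submodule.subset_span ⟨f, rfl⟩) hv]
  rfl

/-- On `Y` the ratio in `pot` is `‖dv f‖² / ‖dl f Λ‖²` for every `f` with `dl f Λ ≠ 0`. -/
theorem pot_eq {y : Cn (N + 1)} (hy : y ∈ X.Y) {Λ} {f : X.Fi} (hf : X.dl f Λ y ≠ 0) (a b : ℝ) :
    X.pot Λ a b y = a * (Real.log (‖X.dv f y‖ ^ 2) - Real.log (‖X.dl f Λ y‖ ^ 2)) + b * Real.log (‖y‖ ^ 2) := by
  have h1 : ∀ f' : X.Fi, ‖X.dv f' y‖ ^ 2 * ‖X.dl f Λ y‖ ^ 2 = ‖X.dv f y‖ ^ 2 * ‖X.dl f' Λ y‖ ^ 2 := by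
    intro f'
    rw [EuclideanSpace.norm_sq_eq, EuclideanSpace.norm_sq_eq, Finset.sum_mul, Finset.sum_mul]
    refine Finset.sum_congr rfl fun β _ => ?_
    change ‖X.dl f' (sel β) y‖ ^ 2 * _ = ‖X.dl f (sel β) y‖ ^ 2 * _
    rw [← mul_pow, ← mul_pow, ← norm_mul, ← norm_mul, mul_comm, X.dl_mul_dl hy f f' Λ (sel β), mul_comm]
  have h2 : 0 < ‖X.dl f Λ y‖ ^ 2 := pow_pos (norm_pos_iff.2 hf) 2
  have h3 : 0 < ∑ f', ‖X.dl f' Λ y‖ ^ 2 :=
    h2.trans_le (Finset.single_le_sum (f := fun f' => ‖X.dl f' Λ y‖ ^ 2) (fun _ _ => sq_nonneg _)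
      (Finset.mem_univ f))
  have h4 : (∑ f', ‖X.dv f' y‖ ^ 2) / ∑ f', ‖X.dl f' Λ y‖ ^ 2 = ‖X.dv f y‖ ^ 2 / ‖X.dl f Λ y‖ ^ 2 := by
    rw [div_eq_div_iff h3.ne' h2.ne', Finset.sum_mul, Finset.mul_sum]
    exact Finset.sum_congr rfl fun f' _ => h1 f'
  rw [pot, h4, Real.log_div (pow_ne_zero _ (norm_ne_zero_iff.2 (thb3_dv_ne hy hf))) h2.ne']

theorem thb3_ev (C : X.Chart) {w : Cn n} (hw : w ∈ C.B) {f : X.Fi} (hf : X.dl f C.Λ (C.σ w) ≠ 0) (a b : ℝ) :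
    (fun x => X.pot C.Λ a b (C.σ x)) =ᶠ[𝓝 w] fun x =>
      a * (Real.log (‖X.dv f (C.σ x)‖ ^ 2) - Real.log (‖X.dl f C.Λ (C.σ x)‖ ^ 2)) + b * Real.log (‖C.σ x‖ ^ 2) := by
  have h1 : ContinuousAt (fun x => X.dl f C.Λ (C.σ x)) w :=
    ((X.analyticAt_dl f C.Λ _).comp (C.an w hw)).continuousAt
  filter_upwards [h1.eventually_ne hf, C.isOpen.mem_nhds hw] with x hx hxB
  exact pot_eq (C.mem hxB) hx a b

theorem Chart.contDiffAt_pot (C : X.Chart) {w : Cn n} (hw : w ∈ C.B) (a b : ℝ) :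
    ContDiffAt ℝ ∞ (fun x => X.pot C.Λ a b (C.σ x)) w := by
  obtain ⟨f, hf⟩ := C.exists_dl hw
  have hy : C.σ w ∈ X.Y := C.mem hw
  refine ContDiffAt.congr_of_eventuallyEq ?_ (thb3_ev C hw hf a b)
  exact (contDiffAt_const.mul ((thb3_log ((X.analyticAt_dv f _).comp (C.an w hw)) (thb3_dv_ne hy hf)).sub
    (thb3_log ((X.analyticAt_dl f C.Λ _).comp (C.an w hw)) hf))).add
    (contDiffAt_const.mul (thb3_log (C.an w hw) hy.1))

theorem Chart.levi_pot (C : X.Chart) {w : Cn n} (hw : w ∈ C.B) (a b : ℝ) {q : Cn (N + 1) → ℝ}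
    (hq : ContDiffAt ℝ 2 q (C.σ w)) (e : Cn n) :
    levi (fun x => X.pot C.Λ a b (C.σ x) + q (C.σ x)) w e = X.eta a b q (C.σ w) (fderiv ℂ C.σ w e) := by
  obtain ⟨f, hf⟩ := C.exists_dl hw
  have hy : C.σ w ∈ X.Y := C.mem hw
  have hle : (2 : WithTop ℕ∞) ≤ ∞ := by norm_cast
  have h1 : ContDiffAt ℝ 2 (fun x => Real.log (‖X.dv f (C.σ x)‖ ^ 2)) w :=
    (thb3_log ((X.analyticAt_dv f _).comp (C.an w hw)) (thb3_dv_ne hy hf)).of_le hle
  have h2 : ContDiffAt ℝ 2 (fun x => Real.log (‖C.σ x‖ ^ 2)) w := (thb3_log (C.an w hw) hy.1).of_le hle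
  have h3 : ContDiffAt ℝ 2 (fun x => Real.log (‖X.dl f C.Λ (C.σ x)‖ ^ 2)) w :=
    (thb3_log ((X.analyticAt_dl f C.Λ _).comp (C.an w hw)) hf).of_le hle
  have h4 : ContDiffAt ℝ 2 (fun x => q (C.σ x)) w :=
    hq.comp w ((C.an w hw).contDiffAt.restrict_scalars ℝ)
  have h5 : (fun x => X.pot C.Λ a b (C.σ x) + q (C.σ x)) =ᶠ[𝓝 w] fun x =>
      (a * Real.log (‖X.dv f (C.σ x)‖ ^ 2) + b * Real.log (‖C.σ x‖ ^ 2) + q (C.σ x)) -
        a * Real.log (‖X.dl f C.Λ (C.σ x)‖ ^ 2) := by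
    filter_upwards [thb3_ev C hw hf a b] with x hx
    rw [hx]; ring
  rw [levi_congr h5, levi_sub (((contDiffAt_const.mul h1).add (contDiffAt_const.mul h2)).add h4)
      (contDiffAt_const.mul h3), levi_const_mul h3,
    levi_log_norm_sq_scalar (g := fun x => X.dl f C.Λ (C.σ x)) ((X.analyticAt_dl f C.Λ _).comp (C.an w hw)) hf,
    C.levi_eq hw (thb3_dv_ne hy hf) a b hq, mul_zero, sub_zero]

/-- A function on `X` which is locally `C²` has an admissible representative (smooth partition of unity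
`exists_contDiff_forall_mem_convex_of_local`-type lemma applied on the closed set `Y ∩ {1/2 ≤ ‖y‖ ≤ 2}`, then `g (y / ‖y‖)`). -/
theorem exists_adm {u : Cn (N + 1) → ℝ} (h0 : X.Hom0 u) (h : ∀ y ∈ X.Y, ∃ g, ContDiffAt ℝ 2 g y ∧ u =ᶠ[𝓝[X.Y] y] g) :
    ∃ u', X.Adm u' ∧ EqOn u' u X.Y := by
  have hK := X.isCompact_Y1.isClosed
  obtain ⟨G, hG⟩ := exists_contMDiffMap_forall_mem_convex_of_local (modelWithCornersSelf ℝ (Cn (N + 1)))
    (M := Cn (N + 1)) (F := ℝ) (n := 2) (t := fun x => {r | x ∈ X.Y ∩ sphere 0 1 → r = u x})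
    (fun x => by
      by_cases hx : x ∈ X.Y ∩ sphere 0 1
      · simpa [hx] using convex_singleton (𝕜 := ℝ) (u x)
      · simp [hx, convex_univ])
    (fun x => by
      by_cases hx : x ∈ X.Y ∩ sphere 0 1
      · obtain ⟨g, hg, hug⟩ := h x hx.1
        obtain ⟨U, hU, hgU⟩ := hg.contDiffOn le_rfl (by simp)
        have hug' : ∀ᶠ y in 𝓝 x, y ∈ X.Y → u y = g y := eventually_nhdsWithin_iff.1 hug
        exact ⟨U ∩ {y | y ∈ X.Y → u y = g y}, inter_mem hU hug', g,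
          (hgU.mono inter_subset_left).contMDiffOn, fun y hy hy' => (hy.2 hy'.1).symm⟩
      · exact ⟨_, hK.isOpen_compl.mem_nhds hx, fun _ => 0, contMDiffOn_const, fun y hy hy' => absurd hy' hy⟩)
  have hGc : ContDiff ℝ 2 G := G.contMDiff.contDiff
  have he : EqOn (fun y => G (‖y‖⁻¹ • y)) u X.Y := by
    intro y hy
    have hn : ‖y‖ ≠ 0 := norm_ne_zero_iff.2 hy.1
    have ht : ((‖y‖⁻¹ : ℝ) : ℂ) ≠ 0 := by exact_mod_cast inv_ne_zero hn
    have h1 := hG (‖y‖⁻¹ • y) ⟨by rw [← Complex.coe_smul]; exact X.smul_mem_Y hy ht, by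
      rw [mem_sphere_zero_iff_norm, norm_smul, norm_inv, norm_norm, inv_mul_cancel₀ hn]⟩
    change G (‖y‖⁻¹ • y) = u y
    rw [h1, ← Complex.coe_smul, h0 y hy _ ht]
  refine ⟨fun y => G (‖y‖⁻¹ • y), ⟨fun y hy => ?_, fun y hy t ht => ?_⟩, he⟩
  · exact hGc.contDiffAt.comp y (((contDiffAt_norm ℂ hy).inv (norm_ne_zero_iff.2 hy)).smul contDiffAt_id)
  · exact (he (X.smul_mem_Y hy ht)).trans ((h0 y hy t ht).trans (he hy).symm)

end Geo

end Crest.Agent.R269
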